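import Vale.Agent.P087.FinalDefs

/-! Further definitions for the stronger statement about P087. -/

open MeasureTheory Filter
open scoped ENNReal NNReal

namespace Vale.Agent.P087.FD

section Law

variable {ι : Type} [Fintype ι] [DecidableEq ι]

/-- `χ_R` with `liminf` in place of `limsup`. -/
noncomputable def chiRLow (μ : List ι → ℂ) (R : ℝ) : EReal :=
  ⨅ (m : ℕ) (ε : ℝ) (_ : 0 < ε),
    liminf (fun k : ℕ =>
      ((((k : ℝ) ^ 2)⁻¹ : ℝ) : EReal) * ENNReal.log (volume (microstates μ R m k ε))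
        + (((Fintype.card ι : ℝ) / 2 * Real.log k : ℝ) : EReal)) atTop

/-- The Schwinger-Dyson equations `τ((D_j V)(X) X_w) = (τ ⊗ τ)(∂_j X_w)` for all `j` and all
monomials `X_w`, where `V` is a noncommutative polynomial and `D_j` is the cyclic derivative,
`D_j (x_{i_1} ⋯ x_{i_p}) = ∑_{l : i_l = j} x_{i_{l+1}} ⋯ x_{i_p} x_{i_1} ⋯ x_{i_{l-1}}`.
In other words, the polynomials `(D_j V)(X)` are the conjugate variables of `X`. -/
def SchwingerDyson (μ : List ι → ℂ) (V : List ι →₀ ℂ) : Prop :=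
  ∀ (j : ι) (w : List ι),
    (V.sum fun v a => a * ∑ l : Fin v.length, if v.get l = j then
      μ (v.drop (l + 1) ++ v.take l ++ w) else 0) = dqWord μ j w

end Law

/-- `s` is a free family of semicircular elements of variance `1`. -/
structure IsFreeSemicircular {A : Type} [Ring A] [StarRing A] [Algebra ℂ A] {ι : Type}
    (τ : A →ₗ[ℂ] ℂ) (s : ι → A) : Prop where
  selfAdjoint : ∀ j, IsSelfAdjoint (s j)
  even : ∀ j k, τ (s j ^ (2 * k)) = (catalan k : ℂ)
  odd : ∀ j k, τ (s j ^ (2 * k + 1)) = 0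
  free : FreeFamily τ (fun j => Algebra.adjoin ℂ {s j})

/-- `∑ᵢ χ(cᵢ sᵢ)` for semicircular elements `sᵢ` of variance `1`. -/
noncomputable def semiEnt {n : ℕ} (c : Fin n → ℝ) : ℝ :=
  ∑ i, 1 / 2 * Real.log (2 * Real.pi * Real.exp 1 * c i ^ 2)

section Alg

variable {A : Type} [Ring A] [StarRing A] [Algebra ℂ A] {n : ℕ}

/-- The tuple `(cᵢ sᵢ)`. -/
noncomputable def scaled (c : Fin n → ℝ) (s : Fin n → A) : Fin n → A := fun i => (c i : ℂ) • s i

/-- The laws of the tuples `X + √t S`. -/
noncomputable def flow (τ : A →ₗ[ℂ] ℂ) (X S : Fin n → A) : ℝ → List (Fin n) → ℂ :=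
  fun t => law τ fun i => X i + ((Real.sqrt t : ℝ) : ℂ) • S i

/-- `X` is the image of `(cᵢ sᵢ)` under a triangular cubic automorphism with small
coefficients. -/
structure IsCubicImage (s X : Fin n → A) (a b : Fin n → Fin n) (c r : Fin n → ℝ) : Prop where
  cubic : ∀ i, X i = (c i : ℂ) • s i + (r i : ℂ) • (s (a i) * s (b i) * s (a i))
  coef : ∀ i, 0 < c i ∧ c i ≤ 1 ∧ |r i| ≤ 1 / 10 ^ 12
  /-- `X_{a(i)}` and `X_{b(i)}` are multiples of `s_{a(i)}` and `s_{b(i)}`. -/
  triangular : ∀ i, r (a i) = 0 ∧ r (b i) = 0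
  /-- `X` and `s` generate the same algebra. -/
  generates : Algebra.adjoin ℂ (Set.range X) = Algebra.adjoin ℂ (Set.range s)

/-- The law `μ` satisfies the Schwinger-Dyson equations of the self-adjoint noncommutative
polynomial `V` of degree at most `6`. -/
structure IsGibbs (μ : List (Fin n) → ℂ) (V : List (Fin n) →₀ ℂ) : Prop where
  degree : ∀ v, 6 < v.length → V v = 0
  symmetric : ∀ v, V v.reverse = star (V v)
  schwingerDyson : SchwingerDyson μ V

/-- The values of `χ` and `χ^*` at `(cᵢ sᵢ)` and at `X`. -/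
structure EntropyValues (τ : A →ₗ[ℂ] ℂ) (s X S : Fin n → A) (c : Fin n → ℝ) : Prop where
  chi_scaled : chi (law τ (scaled c s)) = semiEnt c
  chiStar_scaled : chiStar (flow τ (scaled c s) S) = semiEnt c
  /-- `χ(X)` has the same value, with `limsup` and with `liminf`. -/
  chi_eq : chi (law τ X) = semiEnt c
  chi_lim : ∃ R₀ : ℝ, ∀ R, R₀ ≤ R → chiRLow (law τ X) R = semiEnt c ∧
    chiR (law τ X) R = semiEnt c
  /-- `χ^*(X)` is larger by at least `10⁻²⁵ n`. -/
  gap : ((semiEnt c + 1 / 10 ^ 25 * n : ℝ) : EReal) ≤ chiStar (flow τ X S)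

end Alg

/-- Some von Neumann algebra `M` on the Hilbert space `H`, with a faithful normal tracial state
`τ`, contains a free semicircular `n`-tuple `s` and a self-adjoint `n`-tuple `X`, the image of
`(cᵢ sᵢ)` under a triangular cubic automorphism, with a Gibbs law and with the given values of
`χ` and `χ^*`; the semicirculars `S` in the definition of `χ^*` are free, and free from `X`. -/
inductive StrongGap (H : Type) [NormedAddCommGroup H] [InnerProductSpace ℂ H] [CompleteSpace H]
    (n : ℕ) : Prop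
  | intro (M : VonNeumannAlgebra H) (τ : M.toStarSubalgebra →ₗ[ℂ] ℂ)
      (s X S : Fin n → M.toStarSubalgebra) (a b : Fin n → Fin n) (c r : Fin n → ℝ)
      (V : List (Fin n) →₀ ℂ) :
      IsFaithfulTrace τ → IsNormal M τ → IsFreeSemicircular τ s →
      (∀ i, IsSelfAdjoint (X i)) → IsFreeSemicircularFrom τ X S → IsCubicImage s X a b c r →
      IsGibbs (law τ X) V → EntropyValues τ s X S c → StrongGap H n

end Vale.Agent.P087.FD
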