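import Vale.Agent.P087.H894.Fisher

/-! The density of a family of Gaussian matrices, and its values on typical matrices. -/

set_option autoImplicit false

open MeasureTheory Filter ProbabilityTheory
open scoped ENNReal NNReal Topology

namespace Vale.Agent.P087.H894

open Vale.Agent.P087

theorem pi_withDensity_ofReal {ι : Type*} [Fintype ι] {α : ι → Type*}
    [∀ i, MeasurableSpace (α i)] (μ : ∀ i, Measure (α i)) [∀ i, SigmaFinite (μ i)]
    (f : ∀ i, α i → ℝ) (hf : ∀ i, Integrable (f i) (μ i))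
    (h0 : ∀ i x, 0 ≤ f i x) :
    Measure.pi (fun i => (μ i).withDensity fun x => ENNReal.ofReal (f i x)) =
      (Measure.pi μ).withDensity (fun x => ENNReal.ofReal (∏ i, f i (x i))) := by
  have hfin : ∀ i, IsFiniteMeasure ((μ i).withDensity fun x => ENNReal.ofReal (f i x)) :=
    fun i => isFiniteMeasure_withDensity_ofReal (hf i).2
  refine Measure.pi_eq fun s hs => ?_
  rw [withDensity_apply _ (MeasurableSet.univ_pi hs), Measure.restrict_pi_pi]
  have hint : Integrable (fun x : ∀ i, α i => ∏ i, f i (x i))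
      (Measure.pi fun i => (μ i).restrict (s i)) :=
    Integrable.fintype_prod_dep (fun i => (hf i).restrict)
  rw [← ofReal_integral_eq_lintegral_ofReal hint
    (Eventually.of_forall fun x => Finset.prod_nonneg fun i _ => h0 i _),
    integral_fintype_prod_eq_prod (𝕜 := ℝ) f,
    ENNReal.ofReal_prod_of_nonneg fun i _ => integral_nonneg (h0 i)]
  refine Finset.prod_congr rfl fun i _ => ?_
  rw [withDensity_apply _ (hs i), ofReal_integral_eq_lintegral_ofReal (hf i).restrict
    (Eventually.of_forall fun x => h0 i x)]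

/-- density of a Gaussian matrix -/
noncomputable def pdf (k : ℕ) (v : ℝ≥0) (x : Fin k → Fin k → ℝ) : ℝ :=
  ∏ a, ∏ b, gaussianPDFReal 0 v (x a b)

theorem pdf_nonneg (k : ℕ) (v : ℝ≥0) (x : Fin k → Fin k → ℝ) : 0 ≤ pdf k v x :=
  Finset.prod_nonneg fun _ _ => Finset.prod_nonneg fun _ _ => gaussianPDFReal_nonneg _ _ _

theorem integrable_pdf (k : ℕ) (v : ℝ≥0) : Integrable (pdf k v) := by
  unfold pdf
  exact Integrable.fintype_prod (f := fun _ (y : Fin k → ℝ) => ∏ b, gaussianPDFReal 0 v (y b))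
    (fun _ => Integrable.fintype_prod (f := fun _ (z : ℝ) => gaussianPDFReal 0 v z)
      (fun _ => integrable_gaussianPDFReal 0 v))

theorem pi_gaussian_mat (k : ℕ) (v : ℝ≥0) (hv : v ≠ 0) :
    (Measure.pi fun _ : Fin k => Measure.pi fun _ : Fin k => gaussianReal 0 v) =
      (volume : Measure (Fin k → Fin k → ℝ)).withDensity fun x => ENNReal.ofReal (pdf k v x) := by
  have h1 : (Measure.pi fun _ : Fin k => gaussianReal 0 v) =
      (volume : Measure (Fin k → ℝ)).withDensity
        fun y => ENNReal.ofReal (∏ b, gaussianPDFReal 0 v (y b)) := by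
    have h := pi_withDensity_ofReal (fun _ : Fin k => (volume : Measure ℝ))
      (fun _ => gaussianPDFReal 0 v)
      (fun _ => integrable_gaussianPDFReal 0 v) (fun _ x => gaussianPDFReal_nonneg _ _ _)
    have e : gaussianReal 0 v = (volume : Measure ℝ).withDensity
        fun x => ENNReal.ofReal (gaussianPDFReal 0 v x) := by
      rw [gaussianReal_of_var_ne_zero 0 hv]
      rfl
    rw [e]
    exact h
  rw [h1]
  exact pi_withDensity_ofReal (fun _ : Fin k => (volume : Measure (Fin k → ℝ)))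
    (fun _ y => ∏ b, gaussianPDFReal 0 v (y b))
    (fun _ => Integrable.fintype_prod (f := fun _ (z : ℝ) => gaussianPDFReal 0 v z)
      (fun _ => integrable_gaussianPDFReal 0 v))
    (fun _ _ => Finset.prod_nonneg fun _ _ => gaussianPDFReal_nonneg _ _ _)

theorem pi_gaussian_family {ι : Type*} [Fintype ι] (k : ℕ) (v : ι → ℝ≥0) (hv : ∀ i, v i ≠ 0) :
    (Measure.pi fun i : ι => Measure.pi fun _ : Fin k => Measure.pi fun _ : Fin k =>
      gaussianReal 0 (v i)) =
      (volume : Measure (ι → Fin k → Fin k → ℝ)).withDensity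
        fun x => ENNReal.ofReal (∏ i, pdf k (v i) (x i)) := by
  have e : (fun i : ι => Measure.pi fun _ : Fin k => Measure.pi fun _ : Fin k =>
      gaussianReal 0 (v i)) = fun i => (volume : Measure (Fin k → Fin k → ℝ)).withDensity
        fun x => ENNReal.ofReal (pdf k (v i) x) := by
    funext i
    exact pi_gaussian_mat k (v i) (hv i)
  rw [e]
  exact pi_withDensity_ofReal (fun _ : ι => (volume : Measure (Fin k → Fin k → ℝ)))
    (fun i => pdf k (v i)) (fun i => integrable_pdf k (v i))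
    (fun i => pdf_nonneg k (v i))

theorem pdf_le (k : ℕ) (v : ℝ≥0) (hv : v ≠ 0) (L : ℝ) (x : Fin k → Fin k → ℝ)
    (hx : v * L ≤ ∑ a, ∑ b, x a b ^ 2) :
    pdf k v x ≤ (Real.sqrt (2 * Real.pi * v))⁻¹ ^ (k * k) * Real.exp (-L / 2) := by
  have hv' : (0 : ℝ) < v := by
    have : 0 < v := pos_iff_ne_zero.2 hv
    exact_mod_cast this
  have h1 : pdf k v x = (Real.sqrt (2 * Real.pi * v))⁻¹ ^ (k * k) *
      Real.exp (-(∑ a, ∑ b, x a b ^ 2) / (2 * v)) := by
    unfold pdf
    simp only [gaussianPDFReal_def, sub_zero, Finset.prod_mul_distrib, Finset.prod_const,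
      Finset.card_univ, Fintype.card_fin, ← Real.exp_sum, ← pow_mul]
    congr 2
    rw [← Finset.sum_neg_distrib, Finset.sum_div]
    refine Finset.sum_congr rfl fun a _ => ?_
    rw [← Finset.sum_neg_distrib, Finset.sum_div]
  rw [h1]
  refine mul_le_mul_of_nonneg_left (Real.exp_le_exp.2 ?_) (by positivity)
  rw [neg_div, neg_div, neg_le_neg_iff, div_le_div_iff₀ (by norm_num) (by positivity)]
  nlinarith

/-- density bound for a family of Gaussian matrices on a set of typical matrices -/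
theorem pi_gaussian_le_typ {ι : Type*} [Fintype ι] (k : ℕ) (v : ι → ℝ≥0) (hv : ∀ i, v i ≠ 0)
    (L : ℝ) (G : Set (ι → Fin k → Fin k → ℝ)) (hG : MeasurableSet G)
    (hGL : ∀ x ∈ G, ∀ i, v i * L ≤ ∑ a, ∑ b, x i a b ^ 2) :
    (Measure.pi fun i : ι => Measure.pi fun _ : Fin k => Measure.pi fun _ : Fin k =>
      gaussianReal 0 (v i)) G ≤
    ENNReal.ofReal (∏ i, ((Real.sqrt (2 * Real.pi * v i))⁻¹ ^ (k * k) * Real.exp (-L / 2))) *
      volume G := by
  rw [pi_gaussian_family k v hv, withDensity_apply _ hG, ← setLIntegral_const]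
  refine setLIntegral_mono measurable_const fun x hx => ?_
  refine ENNReal.ofReal_le_ofReal ?_
  refine Finset.prod_le_prod (fun i _ => pdf_nonneg _ _ _) fun i _ => ?_
  exact pdf_le k (v i) (hv i) L (x i) (hGL x hx i)

/-- law of a scaled and sheared Gaussian family, restricted to typical matrices -/
theorem gaussian_typ_le {ι : Type*} [Fintype ι] (p : ι → Prop) [DecidablePred p] (k : ℕ)
    (v : ℝ≥0) (hv : v ≠ 0) (s : ι → ℝ) (hs : ∀ i, 0 < s i)
    (F : (ι → Fin k → Fin k → ℝ) → ι → Fin k → Fin k → ℝ) (hF : Measurable F)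
    (hFp : ∀ x i, p i → F x i = 0) (hFdep : ∀ x y, (∀ i, p i → x i = y i) → F x = F y)
    (L : ℝ) (E G : Set (ι → Fin k → Fin k → ℝ))
    (hG1 : ∀ x ∈ G, ∀ i, v * L ≤ ∑ a, ∑ b, x i a b ^ 2)
    (hG2 : ∀ x ∈ G, (fun i => s i • x i + F (fun j => s j • x j) i) ∈ E) :
    (Measure.pi fun _ : ι => Measure.pi fun _ : Fin k => Measure.pi fun _ : Fin k =>
        gaussianReal 0 v) G ≤
      ENNReal.ofReal (∏ i, ((Real.sqrt (2 * Real.pi * (s i ^ 2 * v)))⁻¹ ^ (k * k) *
        Real.exp (-L / 2))) * volume E := by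
  set E' := toMeasurable volume E with hE'
  have hEE' : E ⊆ E' := subset_toMeasurable _ _
  have hE'm : MeasurableSet E' := measurableSet_toMeasurable _ _
  have hvol : volume E' = volume E := measure_toMeasurable _
  have h1 := measurePreserving_scale k v s
  have h2 := volume_shear p k F hF hFp hFdep
  set W : Set (ι → Fin k → Fin k → ℝ) :=
    ((fun (x : ι → Fin k → Fin k → ℝ) i => x i + F x i) ⁻¹' E') ∩
      {y | ∀ i, (s i ^ 2 * v) * L ≤ ∑ a, ∑ b, y i a b ^ 2} with hW
  have hm2 : MeasurableSet {y : ι → Fin k → Fin k → ℝ |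
      ∀ i, (s i ^ 2 * v) * L ≤ ∑ a, ∑ b, y i a b ^ 2} := by
    have e : {y : ι → Fin k → Fin k → ℝ | ∀ i, (s i ^ 2 * v) * L ≤ ∑ a, ∑ b, y i a b ^ 2} =
        ⋂ i, {y : ι → Fin k → Fin k → ℝ | (s i ^ 2 * v) * L ≤ ∑ a, ∑ b, y i a b ^ 2} := by
      ext y; simp
    rw [e]
    refine MeasurableSet.iInter fun i => measurableSet_le measurable_const ?_
    fun_prop
  have hWm : MeasurableSet W := (h2.measurable hE'm).inter hm2
  have h3 := h1.measure_preimage hWm.nullMeasurableSet
  have hsv : ∀ i, (⟨s i ^ 2, sq_nonneg _⟩ * v : ℝ≥0) ≠ 0 := by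
    intro i
    refine mul_ne_zero ?_ hv
    intro h
    have h4 : s i ^ 2 = 0 := congrArg NNReal.toReal h
    exact (pow_pos (hs i) 2).ne' h4
  have h4 := pi_gaussian_le_typ (ι := ι) k (fun i => ⟨s i ^ 2, sq_nonneg _⟩ * v) hsv L W hWm
    (fun x hx i => by
      have h5 := hx.2 i
      change (s i ^ 2 * v) * L ≤ _
      exact h5)
  calc _ ≤ (Measure.pi fun _ : ι => Measure.pi fun _ : Fin k => Measure.pi fun _ : Fin k =>
        gaussianReal 0 v) ((fun x i => s i • x i) ⁻¹' W) := by
        refine measure_mono (fun x hx => ?_)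
        refine ⟨hEE' (hG2 x hx), fun i => ?_⟩
        have h5 := hG1 x hx i
        have h6 : ∑ a, ∑ b, (s i • x i) a b ^ 2 = s i ^ 2 * ∑ a, ∑ b, x i a b ^ 2 := by
          rw [Finset.mul_sum]
          refine Finset.sum_congr rfl fun a _ => ?_
          rw [Finset.mul_sum]
          refine Finset.sum_congr rfl fun b _ => ?_
          simp only [Pi.smul_apply, smul_eq_mul]
          ring
        show (s i ^ 2 * v) * L ≤ ∑ a, ∑ b, (s i • x i) a b ^ 2
        rw [h6, mul_assoc]
        exact mul_le_mul_of_nonneg_left h5 (sq_nonneg _)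
    _ = _ := h3
    _ ≤ _ := h4
    _ ≤ _ := by
        refine mul_le_mul' (le_of_eq rfl) ?_
        calc volume W ≤ volume ((fun (x : ι → Fin k → Fin k → ℝ) i => x i + F x i) ⁻¹' E') :=
              measure_mono Set.inter_subset_left
          _ = volume E' := h2.measure_preimage hE'm.nullMeasurableSet
          _ = volume E := hvol

end Vale.Agent.P087.H894
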