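import Vale.Agent.P087.H894.Gam

/-! Free Fisher information and non-microstates entropy for sub-tuples with general
coefficients. -/

set_option autoImplicit false

open MeasureTheory Filter
open scoped ENNReal NNReal InnerProductSpace Topology

namespace Vale.Agent.P087.H894

open Vale.Agent.P087

variable {m : ℕ}

/-- the moments of `X + √t S` for general coefficients -/
noncomputable def lawQ (q : Idx m → ℝ) (t : ℝ) (w : List (Idx m)) : ℂ :=
  (expMom q (sig m t) [] w : ℝ)

theorem conjNormSq_diag_le (q : Idx m → ℝ) (c t M : ℝ) (hc : 0 < c) (ht : 0 < t)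
    (hM0 : 0 ≤ M) (a : Fin m) (hqa : q (a, a) = c)
    (hM : ∑ b ∈ Finset.univ.filter (fun b => b ≠ a), (2 * q (a, b) ^ 2 + q (b, a) ^ 2) ≤ M) :
    conjNormSq (lawQ q t) (a, a) ≤ ENNReal.ofReal (1 / (t + c ^ 2 / (1 + M))) := by
  have hst : Real.sqrt t ^ 2 = t := Real.sq_sqrt ht.le
  have hD : 0 < c ^ 2 + t * (1 + M) := by positivity
  have hfin : (c / (c ^ 2 + t * (1 + M))) ^ 2 * (1 + M)
      + (Real.sqrt t * (1 + M) / (c ^ 2 + t * (1 + M))) ^ 2 = 1 / (t + c ^ 2 / (1 + M)) := by
    have h1 : (1 : ℝ) + M ≠ 0 := by positivity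
    have h2 : t + c ^ 2 / (1 + M) ≠ 0 := by positivity
    rw [div_pow, div_pow, mul_pow, hst]
    field_simp
    ring
  have hvec := vec_diag q (sig m t) (fun i => (sig_pos m t ht i).ne') a
    (c / (c ^ 2 + t * (1 + M))) (Real.sqrt t * (1 + M) / (c ^ 2 + t * (1 + M))) M
    (by
      rw [hqa, sig_diag]
      field_simp
      rw [hst]
      ring)
    (by
      refine (Finset.sum_le_sum fun b hb => ?_).trans hM
      rw [Finset.mem_filter] at hb
      have hb' : a ≠ b := hb.2.symm
      rw [sig_off m t a b hb', sig_off m t b a hb.2, div_pow, div_pow,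
        Real.sq_sqrt (by positivity)]
      have h2 : q (a, b) ^ 2 / (1 + t) ≤ q (a, b) ^ 2 :=
        div_le_self (by positivity) (by linarith)
      have h3 : q (b, a) ^ 2 / (1 + t) ≤ q (b, a) ^ 2 :=
        div_le_self (by positivity) (by linarith)
      linarith)
  obtain ⟨η, hη1, hη2⟩ := hvec
  refine conjNormSq_le_of_vec q (sig m t) (a, a)
    (Real.toNNReal (1 / (t + c ^ 2 / (1 + M)))) (fun D => ⟨η, fun Q _ => hη1 Q, ?_⟩)
  rw [Real.coe_toNNReal _ (by positivity), ← hfin]
  exact hη2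

theorem conjNormSq_off_le (q : Idx m → ℝ) (t : ℝ) (ht : 0 < t) (a b : Fin m) (hab : a ≠ b) :
    conjNormSq (lawQ q t) (a, b) ≤ ENNReal.ofReal (1 / (1 + t)) := by
  refine conjNormSq_le_of_vec q (sig m t) (a, b)
    (Real.toNNReal (1 / (1 + t))) (fun D => ⟨((sig m t (a, b))⁻¹ : ℂ) • bas [Sum.inr (a, b)],
      fun Q _ => vec_offdiag_trivial q (sig m t) (a, b)
        (sig_pos m t ht (a, b)).ne' Q, ?_⟩)
  rw [Real.coe_toNNReal _ (by positivity), norm_smul, norm_bas, mul_one, norm_inv,
    Complex.norm_real, Real.norm_eq_abs, inv_pow, sq_abs, sig_off m t a b hab,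
    Real.sq_sqrt (by positivity), one_div]

/-- the good bound for `t ≥ 1/4` -/
theorem conjNormSq_off_le' (q : Idx m → ℝ) (θ : ℝ) (hq0 : ∀ i, 0 ≤ q i)
    (hd : ∀ a, q (a, a) ≤ 1 / 8000) (ho : ∀ a b, a ≠ b → q (a, b) ≤ θ)
    (hrow : ∀ a, ∑ b ∈ Finset.univ.filter (fun b => b ≠ a), q (a, b) ^ 2 ≤ 8)
    (hcol : ∀ a, ∑ b ∈ Finset.univ.filter (fun b => b ≠ a), q (b, a) ^ 2 ≤ 8)
    (hθ0 : 0 ≤ θ) (hθ : θ ≤ 1 / 10 ^ 12) (t : ℝ) (ht : 1 / 4 ≤ t) (a b : Fin m) (hab : a ≠ b) :
    conjNormSq (lawQ q t) (a, b) ≤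
      ENNReal.ofReal (1 / (1 + t) * (1 - q (a, b) ^ 2 / (1 + t) * (99 / 100))) := by
  have ht0 : 0 < t := by linarith
  have hs1 : 1 ≤ Real.sqrt (1 + t) := by
    rw [Real.one_le_sqrt]; linarith
  have hs2 : 1 / 2 ≤ Real.sqrt t := by
    apply Real.le_sqrt_of_sq_le
    norm_num
    linarith
  have hsum : ∀ a b : Fin m, a ≠ b → (q (a, b) / sig m t (a, b)) ^ 2 ≤ q (a, b) ^ 2 := by
    intro a b hab
    rw [sig_off m t a b hab, div_pow, Real.sq_sqrt (by positivity)]
    exact div_le_self (by positivity) (by linarith)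
  have hK : ∀ D, ∑ l ∈ Finset.range (D + 1), ∑ w ∈ wl (Idx m) l,
      gc (fun i => q i / sig m t i) [a, b, a] w ^ 2 ≤ 1 / 100 := by
    intro D
    refine sum_gc_sq_le _ θ ⟨?_, ?_, ?_, ?_, ?_, hθ0, hθ⟩ a b hab D
    · intro i
      exact div_nonneg (hq0 i) (sig_pos m t ht0 i).le
    · intro a
      rw [sig_diag, div_le_iff₀ (by linarith)]
      have := hd a
      linarith
    · intro a b hab
      rw [sig_off m t a b hab]
      exact (div_le_self (hq0 _) hs1).trans (ho a b hab)
    · intro a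
      refine (Finset.sum_le_sum fun b hb => ?_).trans (hrow a)
      rw [Finset.mem_filter] at hb
      exact hsum a b hb.2.symm
    · intro a
      refine (Finset.sum_le_sum fun b hb => ?_).trans (hcol a)
      rw [Finset.mem_filter] at hb
      exact hsum b a hb.2
  have hqθ : q (a, b) ≤ 1 := (ho a b hab).trans (hθ.trans (by norm_num))
  have h0 : 0 ≤ 1 / (1 + t) * (1 - q (a, b) ^ 2 / (1 + t) * (99 / 100)) := by
    have h1 : q (a, b) ^ 2 / (1 + t) ≤ 1 := by
      rw [div_le_one (by linarith)]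
      have := hq0 (a, b)
      nlinarith
    have h2 : 0 ≤ 1 - q (a, b) ^ 2 / (1 + t) * (99 / 100) := by
      have : 0 ≤ q (a, b) ^ 2 / (1 + t) := by positivity
      linarith
    positivity
  refine conjNormSq_le_of_vec q (sig m t) (a, b)
    (Real.toNNReal (1 / (1 + t) * (1 - q (a, b) ^ 2 / (1 + t) * (99 / 100)))) (fun D => ?_)
  obtain ⟨η, h1, h2⟩ := vec_offdiag q (sig m t) (fun i => (sig_pos m t ht0 i).ne')
    a b hab (1 / 100) hK D
  refine ⟨η, h1, h2.trans (le_of_eq ?_)⟩
  rw [Real.coe_toNNReal _ h0, sig_off m t a b hab, Real.sq_sqrt (by positivity)]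
  field_simp
  ring

section Sub

variable {ι κ : Type} [Fintype ι] [DecidableEq ι] [Fintype κ] [DecidableEq κ]

set_option linter.unusedSectionVars false

theorem dqWord_sub (f : κ → ι) (hf : Function.Injective f) (μ : List ι → ℂ) (j : κ)
    (w : List κ) :
    dqWord (fun w : List κ => μ (w.map f)) j w = dqWord μ (f j) (w.map f) := by
  unfold dqWord
  refine Fintype.sum_equiv (finCongr (List.length_map f).symm) _ _ fun l => ?_
  simp [List.map_take, List.map_drop, hf.eq_iff]

theorem dq_sub (f : κ → ι) (hf : Function.Injective f) (μ : List ι → ℂ) (j : κ)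
    (p : List κ →₀ ℂ) :
    dq (fun w : List κ => μ (w.map f)) j p = dq μ (f j) (p.mapDomain (List.map f)) := by
  unfold dq
  rw [Finsupp.sum_mapDomain_index]
  · refine Finsupp.sum_congr fun w _ => ?_
    rw [dqWord_sub f hf]
  · intro w; simp
  · intro w a b; ring

theorem normSq_sub (f : κ → ι) (μ : List ι → ℂ) (p : List κ →₀ ℂ) :
    normSq (fun w : List κ => μ (w.map f)) p = normSq μ (p.mapDomain (List.map f)) := by
  unfold normSq
  congr 1
  rw [Finsupp.sum_mapDomain_index]
  · refine Finsupp.sum_congr fun v _ => ?_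
    rw [Finsupp.sum_mapDomain_index]
    · refine Finsupp.sum_congr fun w _ => ?_
      simp [List.map_reverse]
    · intro w; simp
    · intro w a b; ring
  · intro w; simp
  · intro w a b
    rw [← Finsupp.sum_add]
    refine Finsupp.sum_congr fun v _ => ?_
    rw [map_add]; ring

/-- the Fisher information of a coordinate does not increase when variables are dropped -/
theorem conjNormSq_sub (f : κ → ι) (hf : Function.Injective f) (μ : List ι → ℂ) (j : κ) :
    conjNormSq (fun w : List κ => μ (w.map f)) j ≤ conjNormSq μ (f j) := by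
  unfold conjNormSq
  refine iInf_mono fun C => ?_
  refine le_iInf fun h => ?_
  refine iInf_le_of_le (fun p => ?_) le_rfl
  rw [dq_sub f hf, normSq_sub]
  exact h _

end Sub

theorem chiStar_lawQ_ge {κ : Type} [Fintype κ] [DecidableEq κ] (f : κ → Idx m)
    (hf : Function.Injective f) (q : Idx m → ℝ) (c θ : ℝ) (hc : c = 1 / 8000)
    (hq0 : ∀ i, 0 ≤ q i) (hd : ∀ a, q (a, a) = c) (ho : ∀ a b, a ≠ b → q (a, b) ≤ θ)
    (hrow : ∀ a, ∑ b ∈ Finset.univ.filter (fun b => b ≠ a), q (a, b) ^ 2 ≤ 8)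
    (hcol : ∀ a, ∑ b ∈ Finset.univ.filter (fun b => b ≠ a), q (b, a) ^ 2 ≤ 8)
    (hθ0 : 0 ≤ θ) (hθ : θ ≤ 1 / 10 ^ 12) :
    (((∑ i : κ, 1 / 2 * Real.log (2 * Real.pi * Real.exp 1 * scl c (f i) ^ 2))
        + 1 / 2 * ∑ i : κ, (if (f i).1 = (f i).2 then - Real.log 25
            else 99 / 125 * q (f i) ^ 2) : ℝ) : EReal)
      ≤ chiStar (fun t => fun w : List κ => lawQ q t (w.map f)) := by
  have hc0 : 0 < c := by rw [hc]; norm_num
  set g : ℝ := c ^ 2 / 25 with hgdef
  have hg : 0 < g := by positivity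
  have hg1 : g ≤ 1 := by rw [hgdef, hc]; norm_num
  have hq1 : ∀ a b, a ≠ b → q (a, b) ^ 2 ≤ 1 := by
    intro a b hab
    have h1 : q (a, b) ≤ 1 := (ho a b hab).trans (hθ.trans (by norm_num))
    have h2 := hq0 (a, b)
    nlinarith
  -- the bound for one coordinate
  let u : κ → ℝ → ℝ := fun i t => if (f i).1 = (f i).2 then 1 / (t + g) else
    1 / (1 + t) - (Set.Ioi (1 / 4 : ℝ)).indicator
      (fun t => q (f i) ^ 2 * (99 / 100) * (1 / (1 + t) ^ 2)) t
  let d : κ → ℝ → ℝ := fun i t => if (f i).1 = (f i).2 then 1 / (1 + t) - 1 / (t + g) else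
    (Set.Ioi (1 / 4 : ℝ)).indicator (fun t => q (f i) ^ 2 * (99 / 100) * (1 / (1 + t) ^ 2)) t
  have hud : ∀ i t, u i t = 1 / (1 + t) - d i t := by
    intro i t
    simp only [u, d]
    split_ifs <;> ring
  have hu0 : ∀ i t, 0 < t → 0 ≤ u i t := by
    intro i t ht
    simp only [u]
    split_ifs with h
    · positivity
    · by_cases hmem : t ∈ Set.Ioi (1 / 4 : ℝ)
      · rw [Set.indicator_of_mem hmem]
        have h1 : q (f i) ^ 2 * (99 / 100) * (1 / (1 + t) ^ 2) ≤ 1 / (1 + t) := by
          have h2 : q (f i) ^ 2 ≤ 1 := hq1 _ _ h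
          rw [mul_one_div, div_le_div_iff₀ (by positivity) (by positivity)]
          have h3 : 0 ≤ q (f i) ^ 2 := by positivity
          nlinarith
        linarith
      · rw [Set.indicator_of_notMem hmem, sub_zero]
        positivity
  have hub : ∀ i t, 0 < t → conjNormSq (fun w : List κ => lawQ q t (w.map f)) i ≤
      ENNReal.ofReal (u i t) := by
    intro i t ht
    refine (conjNormSq_sub f hf (lawQ q t) i).trans ?_
    rcases hfi : f i with ⟨a, b⟩
    simp only [u, hfi]
    by_cases hab : a = b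
    · subst hab
      rw [if_pos rfl]
      refine (conjNormSq_diag_le q c t 24 hc0 ht (by norm_num) a (hd a) ?_).trans
        (ENNReal.ofReal_le_ofReal (le_of_eq ?_))
      · rw [Finset.sum_add_distrib, ← Finset.mul_sum]
        have := hrow a
        have := hcol a
        linarith
      · rw [hgdef]
        norm_num
    · rw [if_neg hab]
      by_cases hmem : t ∈ Set.Ioi (1 / 4 : ℝ)
      · refine (conjNormSq_off_le' q θ hq0 (fun a => by rw [hd a, hc]) ho hrow hcol hθ0 hθ t
          (le_of_lt hmem) a b hab).trans (ENNReal.ofReal_le_ofReal (le_of_eq ?_))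
        rw [Set.indicator_of_mem hmem]
        have : (1 + t) ≠ 0 := by positivity
        field_simp
      · rw [Set.indicator_of_notMem hmem, sub_zero]
        exact conjNormSq_off_le q t ht a b hab
  let U : ℝ → ℝ := fun t => ∑ i, u i t
  have hU0 : ∀ t, 0 < t → 0 ≤ U t := fun t ht => Finset.sum_nonneg fun i _ => hu0 i t ht
  have hU : ∀ t, 0 < t → fisher (fun w : List κ => lawQ q t (w.map f)) ≤
      ENNReal.ofReal (U t) := by
    intro t ht
    rw [ENNReal.ofReal_sum_of_nonneg fun i _ => hu0 i t ht]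
    exact Finset.sum_le_sum fun i _ => hub i t ht
  have hUeq : ∀ t, (Fintype.card κ : ℝ) / (1 + t) - U t = ∑ i, d i t := by
    intro t
    simp only [U, hud]
    rw [Finset.sum_sub_distrib, Finset.sum_const, Finset.card_univ, nsmul_eq_mul]
    ring
  obtain ⟨hi1, he1⟩ := integral_inv_sub_inv g hg hg1
  obtain ⟨hi2, he2⟩ := integral_inv_sq (1 / 4) (by norm_num)
  have hsub : Set.Ioi (1 / 4 : ℝ) ⊆ Set.Ioi 0 := Set.Ioi_subset_Ioi (by norm_num)
  have hinter : Set.Ioi (0 : ℝ) ∩ Set.Ioi (1 / 4 : ℝ) = Set.Ioi (1 / 4 : ℝ) :=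
    Set.inter_eq_self_of_subset_right hsub
  have hdi : ∀ i, IntegrableOn (d i) (Set.Ioi 0) := by
    intro i
    by_cases h : (f i).1 = (f i).2
    · have e : d i = fun t => 1 / (1 + t) - 1 / (t + g) := by
        funext t
        simp only [d, if_pos h]
      rw [e]
      exact hi1
    · have e : d i = (Set.Ioi (1 / 4 : ℝ)).indicator
          (fun t => q (f i) ^ 2 * (99 / 100) * (1 / (1 + t) ^ 2)) := by
        funext t
        simp only [d, if_neg h]
      rw [e, IntegrableOn, integrable_indicator_iff measurableSet_Ioi, IntegrableOn,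
        Measure.restrict_restrict measurableSet_Ioi, Set.inter_comm, hinter]
      exact hi2.const_mul _
  have hdv : ∀ i, ∫ t in Set.Ioi (0 : ℝ), d i t =
      if (f i).1 = (f i).2 then Real.log g else 99 / 125 * q (f i) ^ 2 := by
    intro i
    by_cases h : (f i).1 = (f i).2
    · have e : d i = fun t => 1 / (1 + t) - 1 / (t + g) := by
        funext t
        simp only [d, if_pos h]
      rw [e, if_pos h]
      exact he1
    · have e : d i = (Set.Ioi (1 / 4 : ℝ)).indicator
          (fun t => q (f i) ^ 2 * (99 / 100) * (1 / (1 + t) ^ 2)) := by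
        funext t
        simp only [d, if_neg h]
      rw [e, if_neg h, integral_indicator measurableSet_Ioi,
        Measure.restrict_restrict measurableSet_Ioi, Set.inter_comm, hinter, integral_const_mul,
        he2]
      ring
  have hint : IntegrableOn (fun t => (Fintype.card κ : ℝ) / (1 + t) - U t) (Set.Ioi 0) := by
    have e : (fun t => (Fintype.card κ : ℝ) / (1 + t) - U t) = fun t => ∑ i, d i t := by
      funext t
      exact hUeq t
    rw [e]
    exact integrable_finsetSum _ fun i _ => hdi i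
  have hval : ∫ t in Set.Ioi (0 : ℝ), ((Fintype.card κ : ℝ) / (1 + t) - U t) =
      ∑ i, (if (f i).1 = (f i).2 then Real.log g else 99 / 125 * q (f i) ^ 2) := by
    simp_rw [hUeq]
    rw [integral_finsetSum _ fun i _ => hdi i]
    exact Finset.sum_congr rfl fun i _ => hdv i
  have hmain := chiStar_ge (fun t => fun w : List κ => lawQ q t (w.map f)) U hU0 hU hint
  refine le_trans (le_of_eq ?_) hmain
  rw [hval]
  congr 1
  have hlogg : Real.log g = Real.log (c ^ 2) - Real.log 25 := by
    rw [hgdef, Real.log_div (by positivity) (by norm_num)]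
  have hcard : (Fintype.card κ : ℝ) / 2 * Real.log (2 * Real.pi * Real.exp 1) =
      ∑ _i : κ, 1 / 2 * Real.log (2 * Real.pi * Real.exp 1) := by
    rw [Finset.sum_const, Finset.card_univ, nsmul_eq_mul]
    ring
  rw [hcard, Finset.mul_sum, Finset.mul_sum, ← Finset.sum_add_distrib, ← Finset.sum_add_distrib]
  refine Finset.sum_congr rfl fun i _ => ?_
  unfold scl
  by_cases h : (f i).1 = (f i).2
  · simp only [if_pos h]
    rw [hlogg, Real.log_mul (by positivity) (by positivity)]
    ring
  · simp only [if_neg h]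
    rw [one_pow, mul_one]
    ring

end Vale.Agent.P087.H894
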