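import Vale.Agent.P087.Bdl.B2

/-! The estimates of Task F for coefficients supported on a graph of bounded degree. -/

set_option autoImplicit false

open scoped ENNReal NNReal InnerProductSpace

namespace Vale.Agent.P087.H894

open Vale.Agent.P087

variable {m : ℕ}

theorem sqrt_sum_le (a : Fin m) (θ : ℝ) (hθ0 : 0 ≤ θ)
    (o : Option (Fin m)) (r X : Fin m → ℝ) (Y Y' : ℝ) (hY : 0 ≤ Y) (hY' : 0 ≤ Y')
    (hr0 : ∀ b, 0 ≤ r b) (hr : ∀ b, b ≠ a → r b ≤ θ)
    (hrs : ∑ b ∈ Finset.univ.filter (fun b => b ≠ a), r b ^ 2 ≤ 8)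
    (hX0 : ∀ b, 0 ≤ X b)
    (hX1 : ∀ b, b ≠ a → o ≠ some b → X b ≤ Y) (hX2 : ∀ b, b ≠ a → o = some b → X b ≤ Y') :
    Real.sqrt (∑ b, ((if b ≠ a then r b else 0) * X b) ^ 2) ≤ 3 * Y + θ * Y' := by
  refine Real.sqrt_le_iff.mpr ⟨by positivity, ?_⟩
  have h1 : ∀ b, ((if b ≠ a then r b else 0) * X b) ^ 2 ≤
      (if b ≠ a then r b ^ 2 * Y ^ 2 else 0) + (if o = some b then θ ^ 2 * Y' ^ 2 else 0) := by
    intro b
    by_cases hb : b = a
    · subst hb
      rw [if_neg (fun h => h rfl), if_neg (fun h => h rfl), zero_mul, zero_pow two_ne_zero, zero_add]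
      split_ifs
      · positivity
      · exact le_rfl
    · rw [if_pos hb, if_pos hb, mul_pow]
      have hr2 : r b ^ 2 ≤ θ ^ 2 := pow_le_pow_left₀ (hr0 b) (hr b hb) 2
      by_cases ho : o = some b
      · rw [if_pos ho]
        have hx2 : X b ^ 2 ≤ Y' ^ 2 := pow_le_pow_left₀ (hX0 b) (hX2 b hb ho) 2
        have : r b ^ 2 * X b ^ 2 ≤ θ ^ 2 * Y' ^ 2 := mul_le_mul hr2 hx2 (by positivity) (by positivity)
        have h0 : 0 ≤ r b ^ 2 * Y ^ 2 := by positivity
        linarith
      · rw [if_neg ho, add_zero]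
        have hx2 : X b ^ 2 ≤ Y ^ 2 := pow_le_pow_left₀ (hX0 b) (hX1 b hb ho) 2
        exact mul_le_mul_of_nonneg_left hx2 (by positivity)
  refine (Finset.sum_le_sum fun b _ => h1 b).trans ?_
  rw [Finset.sum_add_distrib]
  have h2 : ∑ b : Fin m, (if b ≠ a then r b ^ 2 * Y ^ 2 else 0) ≤ 8 * Y ^ 2 := by
    rw [← Finset.sum_filter, ← Finset.sum_mul]
    exact mul_le_mul_of_nonneg_right hrs (sq_nonneg Y)
  have h3 : ∑ b : Fin m, (if o = some b then θ ^ 2 * Y' ^ 2 else 0) ≤ θ ^ 2 * Y' ^ 2 := by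
    cases o with
    | none => simp; positivity
    | some c => simp
  have h4 : 0 ≤ Y * (θ * Y') := by positivity
  nlinarith [sq_nonneg Y]

/-- coefficients with small entries and bounded row and column sums -/
structure Small (ρ : Idx m → ℝ) (θ : ℝ) : Prop where
  nonneg : ∀ i, 0 ≤ ρ i
  diag : ∀ a, ρ (a, a) ≤ 1 / 4000
  off : ∀ a b, a ≠ b → ρ (a, b) ≤ θ
  row : ∀ a, ∑ b ∈ Finset.univ.filter (fun b => b ≠ a), ρ (a, b) ^ 2 ≤ 8
  col : ∀ a, ∑ b ∈ Finset.univ.filter (fun b => b ≠ a), ρ (b, a) ^ 2 ≤ 8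
  nonneg' : 0 ≤ θ
  le : θ ≤ 1 / 10 ^ 12

/-- the second part of the recursion -/
theorem nrm_Psi_le (ρ : Idx m → ℝ) (θ : ℝ) (H : Small ρ θ) (a : Fin m) (v : List (Fin m))
    (k l2 : ℕ) (C1 C2 : ℝ) (hC1 : 0 ≤ C1) (hC2 : 0 ≤ C2)
    (h1 : ∀ u, gam ρ k u ≤ C1 * 4 ^ u.length * (1 / 400) ^ (rlen u))
    (h2 : ∀ u, gam ρ l2 u ≤ C2 * 4 ^ u.length * (1 / 400) ^ (rlen u)) :
    nrm (trip m k l2) (Psi ρ a v)
      ≤ (7 / 32) * (C1 * C2) * (4 ^ (v.length + 1) * (1 / 400) ^ (rlen (a :: v))) := by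
  obtain ⟨hρ0, hd, ho, hrow, hcol, hθ0, hθ⟩ := H
  set N : ℝ := 4 ^ (v.length + 1) * (1 / 400) ^ (rlen (a :: v)) with hN
  set n := rlen (a :: v) with hn
  have hN0 : 0 ≤ N := by positivity
  have hnil : gam ρ l2 [] ≤ C2 := by simpa [rlen_nil] using h2 []
  have hle1 : n ≤ rlen v + 1 := rlen_cons_le a v
  have hpsi : nrm (trip m k l2) (Psi ρ a v) ≤
      nrm (trip m k l2) (Hf ρ (cA ρ a) (fun _ => v) (fun _ => []))
      + nrm (trip m k l2) (Hf ρ (cB ρ a) (fun _ => v) (fun i => [i.2, a]))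
      + nrm (trip m k l2) (Hf ρ (cB ρ a) (fun i => a :: i.2 :: v) (fun _ => []))
      + nrm (trip m k l2) (Hf ρ (cC ρ a) (fun i => i.1 :: v) (fun i => [i.1])) := by
    rw [nrm_congr (fun x _ => Psi_eq ρ a v x)]
    refine (nrm_add_le _ _ _).trans ?_
    gcongr
    refine (nrm_add_le _ _ _).trans ?_
    gcongr
    exact nrm_add_le _ _ _
  -- first type
  have e1 : nrm (trip m k l2) (Hf ρ (cA ρ a) (fun _ => v) (fun _ => [])) ≤ 1 / 40 * (C1 * C2) * N := by
    rw [nrm_Hf, sum_cA ρ a (fun _ => gam ρ k v * gam ρ l2 []), Real.sqrt_sq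
      (mul_nonneg (hρ0 _) (mul_nonneg (gam_nonneg _ _ _) (gam_nonneg _ _ _)))]
    have hv := h1 v
    have hp : ((1 : ℝ) / 400) ^ (rlen v) ≤ 400 ^ 1 * (1 / 400) ^ n := pow400_le hle1
    calc ρ (a, a) * (gam ρ k v * gam ρ l2 [])
        ≤ 1 / 4000 * ((C1 * 4 ^ v.length * (1 / 400) ^ (rlen v)) * C2) := by
          have := hd a
          have := gam_nonneg ρ k v
          have := gam_nonneg ρ l2 []
          gcongr
      _ ≤ 1 / 4000 * ((C1 * 4 ^ v.length * (400 ^ 1 * (1 / 400) ^ n)) * C2) := by gcongr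
      _ = 1 / 40 * (C1 * C2) * N := by
          rw [hN, pow_succ]
          ring
  -- second type
  have e2 : nrm (trip m k l2) (Hf ρ (cB ρ a) (fun _ => v) (fun i => [i.2, a]))
      ≤ 4 / 100 * (C1 * C2) * N := by
    rw [nrm_Hf, sum_cB ρ a (fun i => gam ρ k v * gam ρ l2 [i.2, a])]
    set Y : ℝ := (C1 * 4 ^ v.length * (1 / 400) ^ (rlen v)) * (C2 * 4 ^ 2 * (1 / 400) ^ 2) with hY
    have hY0 : 0 ≤ Y := by positivity
    have hX : ∀ b, b ≠ a → gam ρ k v * gam ρ l2 [b, a] ≤ Y := by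
      intro b hb
      have h3 := h2 [b, a]
      rw [rlen_pair hb] at h3
      have := gam_nonneg ρ l2 [b, a]
      have h4 := h1 v
      simp only [List.length_cons, List.length_nil, zero_add] at h3
      exact mul_le_mul h4 h3 this (by positivity)
    refine (sqrt_sum_le a θ hθ0 none (fun b => ρ (a, b))
      (fun b => gam ρ k v * gam ρ l2 [b, a]) Y Y hY0 hY0 (fun b => hρ0 _)
      (fun b hb => ho a b hb.symm) (hrow a)
      (fun b => mul_nonneg (gam_nonneg _ _ _) (gam_nonneg _ _ _))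
      (fun b hb _ => hX b hb) (fun b hb _ => hX b hb)).trans ?_
    have hp : ((1 : ℝ) / 400) ^ (rlen v + 1) ≤ (1 / 400) ^ n := pow400_le0 hle1
    have hYN : Y ≤ C1 * C2 * N * (4 / 400) := by
      have : Y = C1 * C2 * (4 * 4 ^ (v.length + 1)) * (1 / 400) * (1 / 400) ^ (rlen v + 1) := by
        rw [hY]
        ring
      rw [this, hN]
      calc C1 * C2 * (4 * 4 ^ (v.length + 1)) * (1 / 400) * (1 / 400) ^ (rlen v + 1)
          ≤ C1 * C2 * (4 * 4 ^ (v.length + 1)) * (1 / 400) * (1 / 400) ^ n := by gcongr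
        _ = _ := by ring
    have hCN : 0 ≤ C1 * C2 * N := by positivity
    have hθ1 : θ * Y ≤ 1 * Y := by
      apply mul_le_mul_of_nonneg_right _ hY0
      refine hθ.trans ?_
      norm_num
    linarith
  -- third type
  have e3 : nrm (trip m k l2) (Hf ρ (cB ρ a) (fun i => a :: i.2 :: v) (fun _ => []))
      ≤ 4 / 100 * (C1 * C2) * N := by
    rw [nrm_Hf, sum_cB ρ a (fun i => gam ρ k (a :: i.2 :: v) * gam ρ l2 [])]
    set Y : ℝ := C1 * C2 * N * (4 / 400) with hY
    set Y' : ℝ := C1 * C2 * N * (4 * 400 ^ 3) with hY'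
    have hY0 : 0 ≤ Y := by positivity
    have hY0' : 0 ≤ Y' := by positivity
    refine (sqrt_sum_le a θ hθ0 (red v).head? (fun b => ρ (a, b))
      (fun b => gam ρ k (a :: b :: v) * gam ρ l2 []) Y Y' hY0 hY0' (fun b => hρ0 _)
      (fun b hb => ho a b hb.symm) (hrow a)
      (fun b => mul_nonneg (gam_nonneg _ _ _) (gam_nonneg _ _ _))
      ?_ ?_).trans ?_
    · intro b hb hbo
      have h3 := h1 (a :: b :: v)
      have hr := rlen_two_of_ne hb hbo
      have hp : ((1 : ℝ) / 400) ^ (rlen (a :: b :: v)) ≤ 1 / 400 * (1 / 400) ^ n :=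
        pow400_le' (by omega)
      simp only [List.length_cons] at h3
      calc gam ρ k (a :: b :: v) * gam ρ l2 []
          ≤ (C1 * 4 ^ (v.length + 1 + 1) * (1 / 400) ^ (rlen (a :: b :: v))) * C2 := by
            have := gam_nonneg ρ l2 []
            gcongr
        _ ≤ (C1 * 4 ^ (v.length + 1 + 1) * (1 / 400 * (1 / 400) ^ n)) * C2 := by gcongr
        _ = Y := by
            rw [hY, hN, pow_succ _ (v.length + 1)]
            ring
    · intro b hb hbo
      have h3 := h1 (a :: b :: v)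
      have hr1 := le_rlen_cons a (b :: v)
      have hr2 := le_rlen_cons b v
      have hp : ((1 : ℝ) / 400) ^ (rlen (a :: b :: v)) ≤ 400 ^ 3 * (1 / 400) ^ n :=
        pow400_le (by omega)
      simp only [List.length_cons] at h3
      calc gam ρ k (a :: b :: v) * gam ρ l2 []
          ≤ (C1 * 4 ^ (v.length + 1 + 1) * (1 / 400) ^ (rlen (a :: b :: v))) * C2 := by
            have := gam_nonneg ρ l2 []
            gcongr
        _ ≤ (C1 * 4 ^ (v.length + 1 + 1) * (400 ^ 3 * (1 / 400) ^ n)) * C2 := by gcongr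
        _ = Y' := by
            rw [hY', hN, pow_succ _ (v.length + 1)]
            ring
    · have hCN : 0 ≤ C1 * C2 * N := by positivity
      have hθ1 : θ * Y' ≤ 1 / 10 ^ 12 * Y' := mul_le_mul_of_nonneg_right hθ hY0'
      rw [hY'] at hθ1
      rw [hY, hY']
      linarith
  -- fourth type
  have e4 : nrm (trip m k l2) (Hf ρ (cC ρ a) (fun i => i.1 :: v) (fun i => [i.1]))
      ≤ 4 / 100 * (C1 * C2) * N := by
    rw [nrm_Hf, sum_cC ρ a (fun i => gam ρ k (i.1 :: v) * gam ρ l2 [i.1])]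
    set Y : ℝ := C1 * C2 * N * (4 / 400) with hY
    set Y' : ℝ := C1 * C2 * N * (4 * 400) with hY'
    have hY0 : 0 ≤ Y := by positivity
    have hY0' : 0 ≤ Y' := by positivity
    have hb1 : ∀ b, gam ρ l2 [b] ≤ C2 * 4 * (1 / 400) := by
      intro b
      have h3 := h2 [b]
      rw [rlen_single] at h3
      simpa using h3
    refine (sqrt_sum_le a θ hθ0 (red v).head? (fun b => ρ (b, a))
      (fun b => gam ρ k (b :: v) * gam ρ l2 [b]) Y Y' hY0 hY0' (fun b => hρ0 _)
      (fun b hb => ho b a hb) (hcol a)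
      (fun b => mul_nonneg (gam_nonneg _ _ _) (gam_nonneg _ _ _))
      ?_ ?_).trans ?_
    · intro b hb hbo
      have h3 := h1 (b :: v)
      have hr := rlen_cons_of_ne hbo
      have hp : ((1 : ℝ) / 400) ^ (rlen (b :: v)) ≤ (1 / 400) ^ n :=
        pow400_le0 (by omega)
      simp only [List.length_cons] at h3
      calc gam ρ k (b :: v) * gam ρ l2 [b]
          ≤ (C1 * 4 ^ (v.length + 1) * (1 / 400) ^ (rlen (b :: v))) * (C2 * 4 * (1 / 400)) := by
            have := gam_nonneg ρ l2 [b]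
            have := hb1 b
            gcongr
        _ ≤ (C1 * 4 ^ (v.length + 1) * (1 / 400) ^ n) * (C2 * 4 * (1 / 400)) := by gcongr
        _ = Y := by
            rw [hY, hN]
            ring
    · intro b hb hbo
      have h3 := h1 (b :: v)
      have hr2 := le_rlen_cons b v
      have hp : ((1 : ℝ) / 400) ^ (rlen (b :: v)) ≤ 400 ^ 2 * (1 / 400) ^ n :=
        pow400_le (by omega)
      simp only [List.length_cons] at h3
      calc gam ρ k (b :: v) * gam ρ l2 [b]
          ≤ (C1 * 4 ^ (v.length + 1) * (1 / 400) ^ (rlen (b :: v))) * (C2 * 4 * (1 / 400)) := by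
            have := gam_nonneg ρ l2 [b]
            have := hb1 b
            gcongr
        _ ≤ (C1 * 4 ^ (v.length + 1) * (400 ^ 2 * (1 / 400) ^ n)) * (C2 * 4 * (1 / 400)) := by
            gcongr
        _ = Y' := by
            rw [hY', hN]
            ring
    · have hCN : 0 ≤ C1 * C2 * N := by positivity
      have hθ1 : θ * Y' ≤ 1 / 10 ^ 12 * Y' := mul_le_mul_of_nonneg_right hθ hY0'
      rw [hY'] at hθ1
      rw [hY, hY']
      linarith
  have hCN : 0 ≤ C1 * C2 * N := by positivity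
  calc nrm (trip m k l2) (Psi ρ a v) ≤ 1 / 40 * (C1 * C2) * N + 4 / 100 * (C1 * C2) * N
        + 4 / 100 * (C1 * C2) * N + 4 / 100 * (C1 * C2) * N := by
          refine hpsi.trans ?_
          gcongr
    _ ≤ 7 / 32 * (C1 * C2) * N := by nlinarith

theorem gam_le_catc (ρ : Idx m → ℝ) (θ : ℝ) (H : Small ρ θ) (l : ℕ) :
    ∀ v, gam ρ l v ≤ catc l * 4 ^ v.length * (1 / 400) ^ (rlen v) := by
  induction l using Nat.strong_induction_on with
  | _ l ihl =>
    intro v
    induction hn : v.length using Nat.strong_induction_on generalizing v with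
    | _ n ihv =>
      cases v with
      | nil =>
        rw [gam_nil]
        simp only [List.length_nil] at hn
        subst hn
        rw [rlen_nil, pow_zero, pow_zero, mul_one, mul_one]
        split_ifs with h
        · rw [h, catc_zero]
        · exact catc_nonneg l
      | cons a v =>
        simp only [List.length_cons] at hn
        subst hn
        set N : ℝ := 4 ^ (v.length + 1) * (1 / 400) ^ (rlen (a :: v)) with hN
        have hN0 : 0 ≤ N := by positivity
        have h1 := first_part_le ρ a v l (catc l) (catc_nonneg l)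
          (fun u hu => ihv u.length (by omega) u rfl)
        have h2 : ∑ k ∈ Finset.range l, nrm (trip m k (l - 1 - k)) (Psi ρ a v) ≤
            (7 / 8) * catc l * N := by
          have h3 : ∀ k ∈ Finset.range l, nrm (trip m k (l - 1 - k)) (Psi ρ a v) ≤
              (7 / 32) * (catc k * catc (l - 1 - k)) * N := by
            intro k hk
            have hkl := Finset.mem_range.mp hk
            exact nrm_Psi_le ρ θ H a v k (l - 1 - k) _ _ (catc_nonneg _)
              (catc_nonneg _) (ihl k hkl) (ihl (l - 1 - k) (by omega))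
          refine (Finset.sum_le_sum h3).trans ?_
          rw [← Finset.sum_mul, ← Finset.mul_sum]
          refine mul_le_mul_of_nonneg_right ?_ hN0
          cases l with
          | zero => simp [catc_zero]; norm_num
          | succ l =>
            rw [catc_succ l, Nat.add_sub_cancel]
            linarith
        calc gam ρ l (a :: v) ≤ _ := gam_cons_le ρ a v l
          _ ≤ (1 / 8) * catc l * N + (7 / 8) * catc l * N := add_le_add h1 h2
          _ = catc l * 4 ^ (v.length + 1) * (1 / 400) ^ (rlen (a :: v)) := by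
              rw [hN]
              ring

/-- the only consequence used later -/
theorem sum_gc_sq_le (ρ : Idx m → ℝ) (θ : ℝ) (H : Small ρ θ) (a b : Fin m) (hab : a ≠ b)
    (D : ℕ) :
    ∑ l ∈ Finset.range (D + 1), ∑ w ∈ wl (Idx m) l, gc ρ [a, b, a] w ^ 2 ≤ 1 / 100 := by
  have h1 : ∀ l ∈ Finset.range (D + 1), ∑ w ∈ wl (Idx m) l, gc ρ [a, b, a] w ^ 2 ≤
      2 * catc l * (1 / 400) := by
    intro l hl
    have h2 : ∑ w ∈ wl (Idx m) l, gc ρ [a, b, a] w ^ 2 = gam ρ l [a, b, a] ^ 2 := (nrm_sq _ _).symm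
    have h3 := gam_le_catc ρ θ H l [a, b, a]
    rw [rlen_triple hab] at h3
    have h4 : catc l ≤ 2 :=
      (Finset.single_le_sum (fun i _ => catc_nonneg i) hl).trans (sum_catc_le D)
    have h5 : gam ρ l [a, b, a] ≤ catc l * (1 / 1000) := by
      refine h3.trans ?_
      have : (0 : ℝ) ≤ catc l := catc_nonneg l
      simp only [List.length_cons, List.length_nil, zero_add]
      nlinarith
    rw [h2]
    have h0 := gam_nonneg ρ l [a, b, a]
    have hc := catc_nonneg l
    calc gam ρ l [a, b, a] ^ 2 ≤ (catc l * (1 / 1000)) ^ 2 := pow_le_pow_left₀ h0 h5 2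
      _ ≤ 2 * catc l * (1 / 400) := by nlinarith
  refine (Finset.sum_le_sum h1).trans ?_
  rw [← Finset.sum_mul, ← Finset.mul_sum]
  have := sum_catc_le D
  linarith

end Vale.Agent.P087.H894
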