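import Vale.Agent.P087.H894.Real

/-! The Schwinger–Dyson equation of the sub-tuple for a polynomial potential. -/

set_option autoImplicit false
set_option linter.unusedSectionVars false

open scoped InnerProductSpace

namespace Vale.Agent.P087.H894

open Vale.Agent.P087

variable {m : ℕ}

theorem inner_zetaV' (c s : Idx m → ℝ) (hs : ∀ a b, a ≠ b → s (a, b) ≠ 0) (a : Fin m)
    (Q : List (Idx m)) :
    ⟪zetaV (fun i => c i / s i) a, XQ c s Q (bas [])⟫_ℂ
      = ∑ k : Fin Q.length, (c (Q.get k) : ℂ) * ∑ b ∈ Finset.univ.filter (fun b => b ≠ a),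
          ((if Q.get k = (a, b) then
              phi c s [] (Q.take k) * phi c s [b, a] (Q.drop (k + 1)) else 0)
            + (if Q.get k = (a, b) then
              phi c s [a, b] (Q.take k) * phi c s [] (Q.drop (k + 1)) else 0)
            + (if Q.get k = (b, a) then
              phi c s [b] (Q.take k) * phi c s [b] (Q.drop (k + 1)) else 0)) := by
  have i1 : ∀ b, b ≠ a → ⟪((c (a, b) / s (a, b) : ℝ) : ℂ) •
      (bas [Sum.inr (a, b), Sum.inl a, Sum.inl b] : Fock (Letter m)), XQ c s Q (bas [])⟫_ℂ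
      = ∑ k : Fin Q.length, (c (Q.get k) : ℂ) * (if Q.get k = (a, b) then
              phi c s [] (Q.take k) * phi c s [b, a] (Q.drop (k + 1)) else 0) := by
    intro b hb
    have h := inner_split c s [] [Sum.inl a, Sum.inl b] (a, b) Q
    rw [List.nil_append] at h
    have hsc : (s (a, b) : ℂ) ≠ 0 := by exact_mod_cast hs a b hb.symm
    rw [inner_smul_left, h, Complex.conj_ofReal, ← mul_assoc, Complex.ofReal_div,
      div_mul_cancel₀ _ hsc, Finset.mul_sum]
    refine Finset.sum_congr rfl fun k _ => ?_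
    split_ifs with hk
    · rw [hk, phi_nil_left, ← Aop_two a b hb.symm, inner_Aop]
      rfl
    · simp
  have i2 : ∀ b, b ≠ a → ⟪((c (a, b) / s (a, b) : ℝ) : ℂ) •
      (bas [Sum.inl b, Sum.inl a, Sum.inr (a, b)] : Fock (Letter m)), XQ c s Q (bas [])⟫_ℂ
      = ∑ k : Fin Q.length, (c (Q.get k) : ℂ) * (if Q.get k = (a, b) then
              phi c s [a, b] (Q.take k) * phi c s [] (Q.drop (k + 1)) else 0) := by
    intro b hb
    have h := inner_split c s [Sum.inl b, Sum.inl a] [] (a, b) Q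
    rw [show ([Sum.inl b, Sum.inl a] ++ Sum.inr (a, b) :: [] : List (Letter m))
      = [Sum.inl b, Sum.inl a, Sum.inr (a, b)] from rfl] at h
    have hsc : (s (a, b) : ℂ) ≠ 0 := by exact_mod_cast hs a b hb.symm
    rw [inner_smul_left, h, Complex.conj_ofReal, ← mul_assoc, Complex.ofReal_div,
      div_mul_cancel₀ _ hsc, Finset.mul_sum]
    refine Finset.sum_congr rfl fun k _ => ?_
    split_ifs with hk
    · rw [hk, phi_nil_left, ← Aop_two b a hb, inner_Aop]
      rfl
    · simp
  have i3 : ∀ b, b ≠ a → ⟪((c (b, a) / s (b, a) : ℝ) : ℂ) •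
      (bas [Sum.inl b, Sum.inr (b, a), Sum.inl b] : Fock (Letter m)), XQ c s Q (bas [])⟫_ℂ
      = ∑ k : Fin Q.length, (c (Q.get k) : ℂ) * (if Q.get k = (b, a) then
              phi c s [b] (Q.take k) * phi c s [b] (Q.drop (k + 1)) else 0) := by
    intro b hb
    have h := inner_split c s [Sum.inl b] [Sum.inl b] (b, a) Q
    rw [show ([Sum.inl b] ++ Sum.inr (b, a) :: [Sum.inl b] : List (Letter m))
      = [Sum.inl b, Sum.inr (b, a), Sum.inl b] from rfl] at h
    have hsc : (s (b, a) : ℂ) ≠ 0 := by exact_mod_cast hs b a hb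
    rw [inner_smul_left, h, Complex.conj_ofReal, ← mul_assoc, Complex.ofReal_div,
      div_mul_cancel₀ _ hsc, Finset.mul_sum]
    refine Finset.sum_congr rfl fun k _ => ?_
    split_ifs with hk
    · rw [hk, ← Aop_one b, inner_Aop, inner_Aop]
      rfl
    · simp
  unfold zetaV
  rw [inner_add_left, inner_add_left, sum_inner, sum_inner, sum_inner,
    ← Finset.sum_add_distrib, ← Finset.sum_add_distrib]
  simp only [Finset.mul_sum]
  rw [Finset.sum_comm]
  refine Finset.sum_congr rfl fun b hb => ?_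
  rw [Finset.mem_filter] at hb
  rw [i1 b hb.2, i2 b hb.2, i3 b hb.2, ← Finset.sum_add_distrib, ← Finset.sum_add_distrib]
  refine Finset.sum_congr rfl fun k _ => by ring

theorem vec_diag' (c s : Idx m → ℝ) (hs : ∀ a b, a ≠ b → s (a, b) ≠ 0) (a : Fin m) (x : ℝ)
    (hx : x * c (a, a) = 1) (Q : List (Idx m)) :
    ⟪(x : ℂ) • (bas [Sum.inl a] - zetaV (fun i => c i / s i) a), XQ c s Q (bas [])⟫_ℂ
        = ∑ k : Fin Q.length, if Q.get k = (a, a) then
            phi c s [] (Q.take k) * phi c s [] (Q.drop (k + 1)) else 0 := by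
  have h1 : ⟪bas [Sum.inl a], XQ c s Q (bas [])⟫_ℂ = phi c s [a] Q := by
    rw [← Aop_one a, inner_Aop]
    rfl
  have h3 : phi c s [a] Q = ∑ k : Fin Q.length, (c (Q.get k) : ℂ) *
      ((if Q.get k = (a, a) then phi c s [] (Q.take k) * phi c s [] (Q.drop (k + 1)) else 0)
      + ∑ b ∈ Finset.univ.filter (fun b => b ≠ a),
        ((if Q.get k = (a, b) then
            phi c s [] (Q.take k) * phi c s [b, a] (Q.drop (k + 1)) else 0)
          + (if Q.get k = (a, b) then
            phi c s [a, b] (Q.take k) * phi c s [] (Q.drop (k + 1)) else 0)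
          + (if Q.get k = (b, a) then
            phi c s [b] (Q.take k) * phi c s [b] (Q.drop (k + 1)) else 0))) := by
    rw [phi_cons]
    have h0 : (∑ k : Fin ([] : List (Fin m)).length, if ([] : List (Fin m)).get k = a then
          (semi (([] : List (Fin m)).take k) : ℂ) * phi c s (([] : List (Fin m)).drop (k + 1)) Q
          else 0) = 0 := Finset.sum_eq_zero fun k _ => k.elim0
    rw [h0, zero_add]
    refine Finset.sum_congr rfl fun k _ => ?_
    have hk := diag_key (Q.get k) a (fun v => phi c s v (Q.take k))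
      (fun v => phi c s v (Q.drop (k + 1)))
    simp only [List.append_nil]
    rw [hk]
  have h4 := inner_zetaV' c s hs a Q
  rw [inner_smul_left, inner_sub_left, h1, h3, h4, ← Finset.sum_sub_distrib,
    Complex.conj_ofReal, Finset.mul_sum]
  refine Finset.sum_congr rfl fun k _ => ?_
  have hx' : (x : ℂ) * (c (a, a) : ℂ) = 1 := by exact_mod_cast hx
  by_cases hk : Q.get k = (a, a)
  · rw [if_pos hk, hk]
    linear_combination (phi c s [] (Q.take k) * phi c s [] (Q.drop (k + 1))) * hx'
  · rw [if_neg hk]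
    ring

section Ops

variable (q : Idx m → ℝ) (c : ℝ)

/-- the operators of the tuple at time `0` -/
noncomputable def Xo (i : Idx m) : Fock (Letter m) →L[ℂ] Fock (Letter m) := Xop q (sig m 0) i

theorem Xo_diag (hq : ∀ a, q (a, a) = c) (a : Fin m) :
    Xo q (a, a) = (c : ℂ) • semL (Sum.inl a : Letter m) := by
  unfold Xo Xop sig
  simp [yw, Aop, hq]

theorem Xo_off (a b : Fin m) (hab : a ≠ b) :
    Xo q (a, b) = (q (a, b) : ℂ) • (semL (Sum.inl a : Letter m) * semL (Sum.inl b : Letter m) *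
      semL (Sum.inl a : Letter m)) + semL (Sum.inr (a, b) : Letter m) := by
  unfold Xo Xop sig
  simp [yw, Aop, hab, mul_assoc]

theorem Xo_sub (hc : c ≠ 0) (hq : ∀ a, q (a, a) = c) (a b : Fin m) (hab : a ≠ b) :
    Xo q (a, b) - ((q (a, b) / c ^ 3 : ℝ) : ℂ) • (Xo q (a, a) * Xo q (b, b) * Xo q (a, a)) =
      semL (Sum.inr (a, b) : Letter m) := by
  have hc' : (c : ℂ) ≠ 0 := Complex.ofReal_ne_zero.2 hc
  rw [Xo_off q a b hab, Xo_diag q c hq, Xo_diag q c hq]
  simp only [smul_mul_assoc, mul_smul_comm, smul_smul]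
  have e : ((q (a, b) / c ^ 3 : ℝ) : ℂ) * ((c : ℂ) * ((c : ℂ) * (c : ℂ))) = (q (a, b) : ℂ) := by
    push_cast
    field_simp
  rw [e]
  abel

theorem bas_three (x y z : Letter m) (hxy : x ≠ y) (hyz : y ≠ z) :
    (semL x * semL y * semL z) (bas []) = bas [x, y, z] := by
  simp [mul_apply_eq_comp, semL_cons, hxy, hyz]

end Ops

section Sub

variable {κ : Type} [Fintype κ] [DecidableEq κ] (f : κ → Idx m) (d : Fin m → κ)
  (q : Idx m → ℝ) (c : ℝ)

/-- words of the sub-tuple -/
noncomputable def XK (u : List κ) : Fock (Letter m) →L[ℂ] Fock (Letter m) :=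
  XQ q (sig m 0) (u.map f)

omit [Fintype κ] [DecidableEq κ] in
theorem XK_cons (j : κ) (u : List κ) : XK f q (j :: u) = Xo q (f j) * XK f q u := by
  unfold XK Xo
  rw [List.map_cons, XQ_cons]

omit [Fintype κ] [DecidableEq κ] in
theorem XK_nil : XK f q [] = 1 := XQ_nil _ _

omit [Fintype κ] [DecidableEq κ] in
theorem XK_append (u v : List κ) : XK f q (u ++ v) = XK f q u * XK f q v := by
  unfold XK
  rw [List.map_append, XQ_append]

omit [Fintype κ] [DecidableEq κ] in
theorem law_XK (w : List κ) :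
    lawQ q 0 (w.map f) = ⟪(bas [] : Fock (Letter m)), XK f q w (bas [])⟫_ℂ := by
  unfold XK lawQ
  rw [← phi_nil_left, phi_nil]

/-- the cyclic derivative, as an operator -/
noncomputable def cyc (i : κ) (v : List κ) : Fock (Letter m) →L[ℂ] Fock (Letter m) :=
  ∑ l : Fin v.length, if v.get l = i then XK f q (v.drop (l + 1) ++ v.take l) else 0

/-- the potential, one term -/
noncomputable def potT (j : κ) : List κ →₀ ℂ :=
  if (f j).1 = (f j).2 then Finsupp.single [j, j] ((1 / (2 * c ^ 2) : ℝ) : ℂ)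
  else Finsupp.single [j, j] ((1 / 2 : ℝ) : ℂ)
    - Finsupp.single [j, d (f j).1, d (f j).2, d (f j).1] ((q (f j) / c ^ 3 / 2 : ℝ) : ℂ)
    - Finsupp.single [d (f j).1, d (f j).2, d (f j).1, j] ((q (f j) / c ^ 3 / 2 : ℝ) : ℂ)
    + Finsupp.single [d (f j).1, d (f j).2, d (f j).1, d (f j).1, d (f j).2, d (f j).1]
        (((q (f j) / c ^ 3) ^ 2 / 2 : ℝ) : ℂ)

/-- the potential `V` -/
noncomputable def pot : List κ →₀ ℂ := ∑ j, potT f d q c j

theorem cyc_two (i j : κ) : cyc f q i [j, j] = if j = i then (2 : ℂ) • Xo q (f j) else 0 := by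
  unfold cyc
  by_cases h : j = i
  · simp [Fin.sum_univ_succ, h, XK_cons, XK_nil, two_smul]
  · simp [Fin.sum_univ_succ, h]

theorem cyc_four (i j a b : κ) : cyc f q i [j, a, b, a] =
    (if j = i then Xo q (f a) * Xo q (f b) * Xo q (f a) else 0)
    + (if a = i then Xo q (f b) * Xo q (f a) * Xo q (f j)
        + Xo q (f j) * Xo q (f a) * Xo q (f b) else 0)
    + (if b = i then Xo q (f a) * Xo q (f j) * Xo q (f a) else 0) := by
  unfold cyc
  by_cases h : j = i <;> by_cases h1 : a = i <;> by_cases h2 : b = i <;>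
    simp [Fin.sum_univ_succ, h, h1, h2, XK_cons, XK_nil, mul_assoc] <;> abel

theorem cyc_four' (i j a b : κ) : cyc f q i [a, b, a, j] =
    (if j = i then Xo q (f a) * Xo q (f b) * Xo q (f a) else 0)
    + (if a = i then Xo q (f b) * Xo q (f a) * Xo q (f j)
        + Xo q (f j) * Xo q (f a) * Xo q (f b) else 0)
    + (if b = i then Xo q (f a) * Xo q (f j) * Xo q (f a) else 0) := by
  unfold cyc
  by_cases h : j = i <;> by_cases h1 : a = i <;> by_cases h2 : b = i <;>
    simp [Fin.sum_univ_succ, h, h1, h2, XK_cons, XK_nil, mul_assoc] <;> abel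

theorem cyc_six (i a b : κ) : cyc f q i [a, b, a, a, b, a] =
    (if a = i then (2 : ℂ) • (Xo q (f b) * Xo q (f a) * (Xo q (f a) * Xo q (f b) * Xo q (f a)))
        + (2 : ℂ) • ((Xo q (f a) * Xo q (f b) * Xo q (f a)) * Xo q (f a) * Xo q (f b)) else 0)
    + (if b = i then (2 : ℂ) •
        (Xo q (f a) * (Xo q (f a) * Xo q (f b) * Xo q (f a)) * Xo q (f a)) else 0) := by
  unfold cyc
  by_cases h1 : a = i <;> by_cases h2 : b = i <;>
    simp [Fin.sum_univ_succ, h1, h2, XK_cons, XK_nil, mul_assoc, two_smul] <;> abel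

end Sub

end Vale.Agent.P087.H894
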