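import Vale.Agent.P087.H894.Gibbs

/-! The Schwinger–Dyson equation of the sub-tuple for a polynomial potential, part 2. -/

set_option autoImplicit false
set_option linter.unusedSectionVars false

open scoped InnerProductSpace

namespace Vale.Agent.P087.H894

open Vale.Agent.P087

variable {m : ℕ}

theorem alg_comb {E : Type*} [Ring E] [Algebra ℂ E] (x a b n : E) (r : ℂ) (p1 p2 p3 : Prop)
    [Decidable p1] [Decidable p2] [Decidable p3] (hn : x - r • (a * b * a) = n) :
    (1 / 2 : ℂ) • (if p1 then (2 : ℂ) • x else 0)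
      - (r / 2) • ((if p1 then a * b * a else 0) + (if p2 then b * a * x + x * a * b else 0)
        + (if p3 then a * x * a else 0))
      - (r / 2) • ((if p1 then a * b * a else 0) + (if p2 then b * a * x + x * a * b else 0)
        + (if p3 then a * x * a else 0))
      + (r ^ 2 / 2) • ((if p2 then (2 : ℂ) • (b * a * (a * b * a)) + (2 : ℂ) • ((a * b * a) * a * b)
          else 0) + (if p3 then (2 : ℂ) • (a * (a * b * a) * a) else 0)) =
    (if p1 then n else 0) - r • (if p2 then b * a * n + n * a * b else 0)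
      - r • (if p3 then a * n * a else 0) := by
  subst hn
  by_cases h1 : p1 <;> by_cases h2 : p2 <;> by_cases h3 : p3 <;>
    simp only [h1, h2, h3, if_true, if_false, mul_sub, sub_mul, smul_mul_assoc, mul_smul_comm,
      mul_assoc] <;> module

section Sub

variable {κ : Type} [Fintype κ] [DecidableEq κ] (f : κ → Idx m) (d : Fin m → κ)
  (q : Idx m → ℝ) (c : ℝ)

/-- the derivative of one term of the potential -/
noncomputable def dT (i j : κ) : Fock (Letter m) →L[ℂ] Fock (Letter m) :=
  if (f j).1 = (f j).2 then (if j = i then ((1 / c ^ 2 : ℝ) : ℂ) • Xo q (f j) else 0)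
  else (if j = i then semL (Sum.inr (f j) : Letter m) else 0)
    - ((q (f j) / c ^ 3 : ℝ) : ℂ) • (if d (f j).1 = i then
        Xo q ((f j).2, (f j).2) * Xo q ((f j).1, (f j).1) * semL (Sum.inr (f j) : Letter m)
        + semL (Sum.inr (f j) : Letter m) * Xo q ((f j).1, (f j).1) * Xo q ((f j).2, (f j).2)
        else 0)
    - ((q (f j) / c ^ 3 : ℝ) : ℂ) • (if d (f j).2 = i then
        Xo q ((f j).1, (f j).1) * semL (Sum.inr (f j) : Letter m) * Xo q ((f j).1, (f j).1)
        else 0)

theorem lc_potT (hc : c ≠ 0) (hq : ∀ a, q (a, a) = c) (hd : ∀ a, f (d a) = (a, a)) (i j : κ) :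
    Finsupp.linearCombination ℂ (cyc f q i) (potT f d q c j) = dT f d q c i j := by
  unfold potT dT
  by_cases h : (f j).1 = (f j).2
  · rw [if_pos h, if_pos h, Finsupp.linearCombination_single, cyc_two]
    by_cases hj : j = i
    · rw [if_pos hj, if_pos hj, smul_smul]
      congr 1
      push_cast
      have hc' : (c : ℂ) ≠ 0 := Complex.ofReal_ne_zero.2 hc
      field_simp
    · rw [if_neg hj, if_neg hj, smul_zero]
  · rw [if_neg h, if_neg h, map_add, map_sub, map_sub, Finsupp.linearCombination_single,
      Finsupp.linearCombination_single, Finsupp.linearCombination_single,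
      Finsupp.linearCombination_single, cyc_two, cyc_four, cyc_four', cyc_six, hd, hd]
    have hx := Xo_sub q c hc hq (f j).1 (f j).2 h
    have h1 := alg_comb (Xo q (f j)) (Xo q ((f j).1, (f j).1)) (Xo q ((f j).2, (f j).2))
      (semL (Sum.inr (f j) : Letter m)) ((q (f j) / c ^ 3 : ℝ) : ℂ) (j = i) (d (f j).1 = i)
      (d (f j).2 = i) hx
    rw [← h1]
    push_cast
    rfl

theorem lc_pot (hc : c ≠ 0) (hq : ∀ a, q (a, a) = c) (hd : ∀ a, f (d a) = (a, a)) (i : κ) :
    Finsupp.linearCombination ℂ (cyc f q i) (pot f d q c) = ∑ j, dT f d q c i j := by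
  unfold pot
  rw [map_sum]
  exact Finset.sum_congr rfl fun j _ => lc_potT f d q c hc hq hd i j

theorem star_semL (x : Letter m) : star (semL x) = semL x := isSelfAdjoint_semL x

theorem star_Xo (i : Idx m) : star (Xo q i) = Xo q i := isSelfAdjoint_Xop _ _ _

theorem star_dT (i j : κ) : star (dT f d q c i j) = dT f d q c i j := by
  unfold dT
  have e : ∀ r : ℝ, star (r : ℂ) = (r : ℂ) := fun r => Complex.conj_ofReal r
  by_cases h : (f j).1 = (f j).2
  · rw [if_pos h]
    by_cases hj : j = i
    · rw [if_pos hj, star_smul, e, star_Xo]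
    · rw [if_neg hj, star_zero]
  · have key : ∀ (p : Prop) [Decidable p] (A : Fock (Letter m) →L[ℂ] Fock (Letter m)),
        star A = A → star (if p then A else 0) = if p then A else 0 := by
      intro p _ A hA
      split_ifs
      · exact hA
      · exact star_zero _
    rw [if_neg h, star_sub, star_sub, star_smul, star_smul, e, key, key, key]
    · rw [star_mul, star_mul, star_semL, star_Xo, mul_assoc]
    · rw [star_add, star_mul, star_mul, star_mul, star_mul, star_semL, star_Xo, star_Xo,
        ← mul_assoc, ← mul_assoc, add_comm]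
    · exact star_semL _

/-- the vector of one term, as a function of the index -/
noncomputable def vT (a0 : Fin m) (p : Idx m) : Fock (Letter m) :=
  if p.1 = p.2 then 0 else
    ((q p / c : ℝ) : ℂ) • ((if p.1 = a0 then
      (bas [Sum.inl p.2, Sum.inl p.1, Sum.inr p] + bas [Sum.inr p, Sum.inl p.1, Sum.inl p.2])
        else 0) + (if p.2 = a0 then bas [Sum.inl p.1, Sum.inr p, Sum.inl p.1] else 0))

theorem dT_vac_diag (hc : c ≠ 0) (hq : ∀ a, q (a, a) = c) (hd : ∀ a, f (d a) = (a, a))
    (a0 : Fin m) (j : κ) :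
    (dT f d q c (d a0) j) (bas []) =
      (if j = d a0 then ((1 / c : ℝ) : ℂ) • bas [Sum.inl a0] else 0) - vT q c a0 (f j) := by
  have hc' : (c : ℂ) ≠ 0 := Complex.ofReal_ne_zero.2 hc
  have hdi : ∀ a b, d a = d b ↔ a = b := by
    intro a b
    constructor
    · intro h
      have := congrArg f h
      rw [hd, hd] at this
      exact (Prod.mk.inj this).1
    · intro h; rw [h]
  unfold dT vT
  by_cases h : (f j).1 = (f j).2
  · rw [if_pos h, if_pos h, sub_zero]
    by_cases hj : j = d a0
    · rw [if_pos hj, if_pos hj, hj, hd, Xo_diag q c hq]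
      rw [smul_smul]
      show (((1 / c ^ 2 : ℝ) : ℂ) * (c : ℂ)) • semL (Sum.inl a0 : Letter m) (bas []) = _
      rw [semL_nil]
      congr 1
      push_cast
      field_simp
    · rw [if_neg hj, if_neg hj]
      rfl
  · have hj : j ≠ d a0 := by
      rintro rfl
      apply h
      rw [hd]
    rw [if_neg h, if_neg h, if_neg hj, if_neg hj]
    rcases hfj : f j with ⟨a, b⟩
    rw [hfj] at h
    have hab : a ≠ b := h
    simp only [hdi]
    rw [Xo_diag q c hq, Xo_diag q c hq]
    have e1 : ((c : ℂ) • semL (Sum.inl b : Letter m) * (c : ℂ) • semL (Sum.inl a : Letter m) *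
        semL (Sum.inr (a, b) : Letter m)) (bas []) =
        ((c : ℂ) * (c : ℂ)) • bas [Sum.inl b, Sum.inl a, Sum.inr (a, b)] := by
      simp only [smul_mul_assoc, mul_smul_comm, smul_smul]
      show ((c : ℂ) * (c : ℂ)) • ((semL (Sum.inl b : Letter m) * semL (Sum.inl a : Letter m) *
        semL (Sum.inr (a, b) : Letter m)) (bas [])) = _
      rw [bas_three _ _ _ (by simpa using hab.symm) (by simp)]
    have e2 : (semL (Sum.inr (a, b) : Letter m) * (c : ℂ) • semL (Sum.inl a : Letter m) *
        (c : ℂ) • semL (Sum.inl b : Letter m)) (bas []) =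
        ((c : ℂ) * (c : ℂ)) • bas [Sum.inr (a, b), Sum.inl a, Sum.inl b] := by
      simp only [smul_mul_assoc, mul_smul_comm, smul_smul]
      show ((c : ℂ) * (c : ℂ)) • ((semL (Sum.inr (a, b) : Letter m) *
        semL (Sum.inl a : Letter m) * semL (Sum.inl b : Letter m)) (bas [])) = _
      rw [bas_three _ _ _ (by simp) (by simpa using hab)]
    have e3 : ((c : ℂ) • semL (Sum.inl a : Letter m) * semL (Sum.inr (a, b) : Letter m) *
        (c : ℂ) • semL (Sum.inl a : Letter m)) (bas []) =
        ((c : ℂ) * (c : ℂ)) • bas [Sum.inl a, Sum.inr (a, b), Sum.inl a] := by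
      simp only [smul_mul_assoc, mul_smul_comm, smul_smul]
      show ((c : ℂ) * (c : ℂ)) • ((semL (Sum.inl a : Letter m) *
        semL (Sum.inr (a, b) : Letter m) * semL (Sum.inl a : Letter m)) (bas [])) = _
      rw [bas_three _ _ _ (by simp) (by simp)]
    have hr : ((q (a, b) / c ^ 3 : ℝ) : ℂ) * ((c : ℂ) * (c : ℂ)) = ((q (a, b) / c : ℝ) : ℂ) := by
      push_cast
      field_simp
    by_cases h1 : a = a0
    · by_cases h2 : b = a0
      · exact absurd (h1.trans h2.symm) hab
      · rw [if_pos h1, if_neg h2, if_pos h1, if_neg h2, smul_zero, sub_zero, zero_sub, add_zero,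
          zero_sub, neg_apply, smul_apply, add_apply, e1, e2, ← smul_add, smul_smul, hr]
    · by_cases h2 : b = a0
      · rw [if_neg h1, if_pos h2, if_neg h1, if_pos h2, smul_zero, sub_zero, zero_sub, zero_add,
          zero_sub, neg_apply, smul_apply, e3, smul_smul, hr]
      · rw [if_neg h1, if_neg h2, if_neg h1, if_neg h2, smul_zero, sub_zero, sub_zero, add_zero,
          smul_zero, sub_zero]
        rfl

theorem sum_vT (hf : Function.Injective f)
    (hq0 : ∀ a b, a ≠ b → (∀ j, f j ≠ (a, b)) → q (a, b) = 0) (a0 : Fin m) :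
    ∑ j, vT q c a0 (f j) = ((1 / c : ℝ) : ℂ) • zetaV (fun i => q i / sig m 0 i) a0 := by
  have h1 : ∑ j, vT q c a0 (f j) = ∑ p : Idx m, vT q c a0 p := by
    refine Fintype.sum_of_injective f hf _ _ (fun p hp => ?_) (fun j => rfl)
    obtain ⟨a, b⟩ := p
    unfold vT
    by_cases h : a = b
    · simp [h]
    · have h2 : q (a, b) = 0 := hq0 a b h fun j hj => hp ⟨j, hj⟩
      simp [h, h2]
  rw [h1]
  have hs : ∀ a b : Fin m, a ≠ b → sig m 0 (a, b) = 1 := by
    intro a b hab
    simp [sig, hab]
  have key : ∀ p : Idx m, vT q c a0 p =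
      (if p.1 = a0 then (if p.2 ≠ a0 then ((q p / c : ℝ) : ℂ) •
        (bas [Sum.inl p.2, Sum.inl p.1, Sum.inr p] + bas [Sum.inr p, Sum.inl p.1, Sum.inl p.2])
          else 0) else 0) +
      (if p.2 = a0 then (if p.1 ≠ a0 then ((q p / c : ℝ) : ℂ) •
        (bas [Sum.inl p.1, Sum.inr p, Sum.inl p.1] : Fock (Letter m)) else 0) else 0) := by
    rintro ⟨a, b⟩
    unfold vT
    by_cases h1 : a = a0
    · subst h1
      by_cases h2 : b = a
      · subst h2
        simp
      · have h3 : ¬ a = b := fun h => h2 h.symm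
        simp [h2, h3]
    · by_cases h2 : b = a0
      · subst h2
        simp [h1]
      · simp [h1, h2]
  rw [Finset.sum_congr rfl fun p _ => key p, Finset.sum_add_distrib]
  rw [Fintype.sum_prod_type, Fintype.sum_prod_type_right]
  have s1 : ∀ F : Fin m → Fin m → Fock (Letter m),
      (∑ a, ∑ b, if a = a0 then (if b ≠ a0 then F a b else 0) else 0) =
        ∑ b ∈ Finset.univ.filter (fun b => b ≠ a0), F a0 b := by
    intro F
    rw [Finset.sum_eq_single a0, Finset.sum_filter]
    · simp
    · intro a _ ha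
      simp [ha]
    · intro h; exact absurd (Finset.mem_univ _) h
  have e1 := s1 fun a b => ((q (a, b) / c : ℝ) : ℂ) •
    (bas [Sum.inl b, Sum.inl a, Sum.inr (a, b)] + bas [Sum.inr (a, b), Sum.inl a, Sum.inl b])
  have e2 := s1 fun b a => ((q (a, b) / c : ℝ) : ℂ) •
    (bas [Sum.inl a, Sum.inr (a, b), Sum.inl a] : Fock (Letter m))
  rw [e1, e2]
  · unfold zetaV
    rw [smul_add, smul_add, Finset.smul_sum, Finset.smul_sum, Finset.smul_sum,
      ← Finset.sum_add_distrib, ← Finset.sum_add_distrib, ← Finset.sum_add_distrib]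
    refine Finset.sum_congr rfl fun b hb => ?_
    rw [Finset.mem_filter] at hb
    simp only [hs a0 b hb.2.symm, hs b a0 hb.2, smul_smul, smul_add]
    have e3 : ((q (a0, b) / c : ℝ) : ℂ) = ((1 / c : ℝ) : ℂ) * ((q (a0, b) / 1 : ℝ) : ℂ) := by
      push_cast
      ring
    have e4 : ((q (b, a0) / c : ℝ) : ℂ) = ((1 / c : ℝ) : ℂ) * ((q (b, a0) / 1 : ℝ) : ℂ) := by
      push_cast
      ring
    rw [e3, e4]
    abel

theorem sig_off_ne (a b : Fin m) (hab : a ≠ b) : sig m 0 (a, b) ≠ 0 := by
  simp [sig, hab]

/-- the Schwinger–Dyson equation -/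
theorem gibbs (hc : c ≠ 0) (hq : ∀ a, q (a, a) = c) (hd : ∀ a, f (d a) = (a, a))
    (hf : Function.Injective f)
    (hq0 : ∀ a b, a ≠ b → (∀ j, f j ≠ (a, b)) → q (a, b) = 0) (i : κ) (w : List κ) :
    ((pot f d q c).sum fun v a => a * ∑ l : Fin v.length, if v.get l = i then
      lawQ q 0 ((v.drop (l + 1) ++ v.take l ++ w).map f) else 0) =
      dqWord (fun w : List κ => lawQ q 0 (w.map f)) i w := by
  -- left side
  have hL : ((pot f d q c).sum fun v a => a * ∑ l : Fin v.length, if v.get l = i then
      lawQ q 0 ((v.drop (l + 1) ++ v.take l ++ w).map f) else 0) =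
      ⟪(bas [] : Fock (Letter m)), (Finsupp.linearCombination ℂ (cyc f q i) (pot f d q c))
        (XK f q w (bas []))⟫_ℂ := by
    rw [Finsupp.linearCombination_apply, Finsupp.sum, Finsupp.sum,
      sum_apply, inner_sum]
    refine Finset.sum_congr rfl fun v _ => ?_
    rw [smul_apply, inner_smul_right]
    congr 1
    unfold cyc
    rw [sum_apply, inner_sum]
    refine Finset.sum_congr rfl fun l _ => ?_
    by_cases h : v.get l = i
    · rw [if_pos h, if_pos h, law_XK, XK_append f q (v.drop (l + 1) ++ v.take l) w]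
      rfl
    · rw [if_neg h, if_neg h]
      simp
  rw [hL, lc_pot f d q c hc hq hd i]
  have hsa : star (∑ j, dT f d q c i j) = ∑ j, dT f d q c i j := by
    rw [star_sum]
    exact Finset.sum_congr rfl fun j _ => star_dT f d q c i j
  have hadj : ⟪(bas [] : Fock (Letter m)), (∑ j, dT f d q c i j) (XK f q w (bas []))⟫_ℂ =
      ⟪(∑ j, dT f d q c i j) (bas []), XK f q w (bas [])⟫_ℂ := by
    conv_lhs => rw [← hsa]
    rw [ContinuousLinearMap.star_eq_adjoint, ContinuousLinearMap.adjoint_inner_right]
  rw [hadj]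
  -- right side
  have hR : dqWord (fun w : List κ => lawQ q 0 (w.map f)) i w =
      ∑ k : Fin (w.map f).length, if (w.map f).get k = f i then
        phi q (sig m 0) [] ((w.map f).take k) * phi q (sig m 0) [] ((w.map f).drop (k + 1))
          else 0 := by
    rw [dqWord_sub f hf]
    unfold dqWord lawQ
    refine Finset.sum_congr rfl fun k _ => ?_
    rw [phi_nil, phi_nil]
  rw [hR]
  rcases hfi : f i with ⟨a, b⟩
  by_cases hab : a = b
  · subst hab
    have hi : i = d a := hf (by rw [hfi, hd])
    subst hi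
    rw [sum_apply,
      Finset.sum_congr rfl fun j _ => dT_vac_diag f d q c hc hq hd a j,
      Finset.sum_sub_distrib, Finset.sum_ite_eq' Finset.univ (d a), if_pos (Finset.mem_univ _),
      sum_vT f q c hf hq0 a, ← smul_sub]
    exact vec_diag' q (sig m 0) sig_off_ne a (1 / c) (by rw [hq]; field_simp) (w.map f)
  · have hd' : ∀ a', d a' ≠ i := by
      rintro a' rfl
      rw [hd] at hfi
      have := Prod.mk.inj hfi
      exact hab (this.1.symm.trans this.2)
    have hv : (∑ j, dT f d q c i j) (bas []) = bas [Sum.inr (a, b)] := by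
      rw [sum_apply, Finset.sum_eq_single i]
      · unfold dT
        have h : ¬ (f i).1 = (f i).2 := by rw [hfi]; exact hab
        rw [if_neg h, if_pos rfl, if_neg (hd' _), if_neg (hd' _), hfi]
        simp
      · intro j _ hj
        unfold dT
        rw [if_neg hj, if_neg (hd' _), if_neg (hd' _), if_neg hj]
        simp
      · intro h; exact absurd (Finset.mem_univ _) h
    rw [hv]
    have h1 := vec_offdiag_trivial q (sig m 0) (a, b) (sig_off_ne a b hab) (w.map f)
    have h2 : sig m 0 (a, b) = 1 := by simp [sig, hab]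
    rw [h2] at h1
    simp only [Complex.ofReal_one, inv_one, one_smul] at h1
    exact h1

/-- the potential is self-adjoint -/
theorem potT_reverse (j : κ) (v : List κ) :
    potT f d q c j v.reverse = star (potT f d q c j v) := by
  have e : ∀ r : ℝ, star (r : ℂ) = (r : ℂ) := fun r => Complex.conj_ofReal r
  have hs : ∀ (u : List κ) (r : ℝ), (Finsupp.single u (r : ℂ)) v.reverse =
      star ((Finsupp.single u.reverse (r : ℂ)) v) := by
    intro u r
    rw [Finsupp.single_apply, Finsupp.single_apply]
    by_cases h : u = v.reverse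
    · rw [if_pos h, if_pos (by rw [h, List.reverse_reverse]), e]
    · rw [if_neg h, if_neg (fun h' => h (by rw [← h', List.reverse_reverse])), star_zero]
  unfold potT
  by_cases h : (f j).1 = (f j).2
  · rw [if_pos h, hs]
    rfl
  · rw [if_neg h]
    simp only [Finsupp.add_apply, Finsupp.sub_apply, hs, star_add, star_sub]
    simp only [List.reverse_cons, List.reverse_nil, List.nil_append, List.cons_append]
    ring

theorem pot_reverse (v : List κ) : pot f d q c v.reverse = star (pot f d q c v) := by
  unfold pot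
  rw [Finsupp.finsetSum_apply, Finsupp.finsetSum_apply, star_sum]
  exact Finset.sum_congr rfl fun j _ => potT_reverse f d q c j v

end Sub

end Vale.Agent.P087.H894
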