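import Vale.Agent.P087.H894.Upper

/-! A circulant graph of bounded degree with a prescribed number of edges, and the sub-tuple
attached to a graph. -/

set_option autoImplicit false

namespace Vale.Agent.P087.H894

open Vale.Agent.P087

theorem exists_graph (m d e : ℕ) (hdm : d < m) (he : e ≤ m * d) :
    ∃ E : Finset (Fin m × Fin m), E.card = e ∧ (∀ p ∈ E, p.1 ≠ p.2) ∧
      (∀ a, (Finset.univ.filter fun b => (a, b) ∈ E).card ≤ d) ∧
      (∀ b, (Finset.univ.filter fun a => (a, b) ∈ E).card ≤ d) := by
  have hm0 : 0 < m := by omega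
  have : NeZero m := ⟨hm0.ne'⟩
  set F : Finset (Fin m × Fin m) := Finset.univ.filter fun p : Fin m × Fin m =>
    p.1 ≠ p.2 ∧ (p.2 - p.1).val ≤ d with hF
  have hcard : m * d ≤ F.card := by
    let g : Fin m × Fin d → Fin m × Fin m := fun p =>
      (p.1, p.1 + ⟨p.2.val + 1, by have := p.2.2; omega⟩)
    have hg : Set.InjOn g (Finset.univ : Finset (Fin m × Fin d)) := by
      rintro ⟨a, j⟩ _ ⟨b, l⟩ _ h
      have h1 : a = b := congrArg Prod.fst h
      subst h1
      have h2 : a + ⟨j.val + 1, by have := j.2; omega⟩ =
        a + (⟨l.val + 1, by have := l.2; omega⟩ : Fin m) := congrArg Prod.snd h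
      have h3 := add_left_cancel h2
      have h4 : j.val + 1 = l.val + 1 := congrArg Fin.val h3
      have h5 : j = l := Fin.ext (by omega)
      rw [h5]
    have hmaps : ∀ p ∈ (Finset.univ : Finset (Fin m × Fin d)), g p ∈ F := by
      rintro ⟨a, j⟩ _
      rw [hF, Finset.mem_filter]
      refine ⟨Finset.mem_univ _, ?_, ?_⟩
      · show a ≠ a + ⟨j.val + 1, by have := j.2; omega⟩
        intro h
        have h1 : (⟨j.val + 1, by have := j.2; omega⟩ : Fin m) = 0 := by
          have := h.symm
          rwa [add_eq_left] at this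
        have h2 : j.val + 1 = 0 := by
          have := congrArg Fin.val h1
          simp at this
        omega
      · show (a + ⟨j.val + 1, by have := j.2; omega⟩ - a : Fin m).val ≤ d
        rw [add_sub_cancel_left]
        have := j.2
        show j.val + 1 ≤ d
        omega
    have := Finset.card_le_card_of_injOn g hmaps hg
    rw [Finset.card_univ, Fintype.card_prod, Fintype.card_fin, Fintype.card_fin] at this
    exact this
  obtain ⟨E, hEF, hE⟩ := Finset.exists_subset_card_eq (he.trans hcard)
  refine ⟨E, hE, fun p hp => ?_, fun a => ?_, fun b => ?_⟩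
  · have := hEF hp
    rw [hF, Finset.mem_filter] at this
    exact this.2.1
  · have hmaps : ∀ b ∈ Finset.univ.filter (fun b => (a, b) ∈ E), (b - a).val - 1 ∈
        Finset.range d := by
      intro b hb
      rw [Finset.mem_filter] at hb
      have := hEF hb.2
      rw [hF, Finset.mem_filter] at this
      have h1 : (b - a).val ≠ 0 := by
        intro h
        have h2 : b - a = 0 := Fin.ext (by simpa using h)
        exact this.2.1 (sub_eq_zero.1 h2).symm
      have h2 := this.2.2
      rw [Finset.mem_range]
      show (b - a).val - 1 < d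
      have h3 : (b - a).val ≤ d := h2
      omega
    have hinj : Set.InjOn (fun b : Fin m => (b - a).val - 1)
        (Finset.univ.filter fun b => (a, b) ∈ E) := by
      intro b hb b' hb' h
      have key : ∀ b, b ∈ ((Finset.univ.filter fun b => (a, b) ∈ E : Finset (Fin m)) : Set (Fin m))
          → (b - a).val ≠ 0 := by
        intro b hb h
        rw [Finset.mem_coe, Finset.mem_filter] at hb
        have := hEF hb.2
        rw [hF, Finset.mem_filter] at this
        have h2 : b - a = 0 := Fin.ext (by simpa using h)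
        exact this.2.1 (sub_eq_zero.1 h2).symm
      have h1 := key b hb
      have h2 := key b' hb'
      have h3 : (b - a).val - 1 = (b' - a).val - 1 := h
      have h4 : b - a = b' - a := Fin.ext (by omega)
      exact sub_left_injective h4
    have := Finset.card_le_card_of_injOn _ hmaps hinj
    rwa [Finset.card_range] at this
  · have hmaps : ∀ a ∈ Finset.univ.filter (fun a => (a, b) ∈ E), (b - a).val - 1 ∈
        Finset.range d := by
      intro a ha
      rw [Finset.mem_filter] at ha
      have := hEF ha.2
      rw [hF, Finset.mem_filter] at this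
      have h1 : (b - a).val ≠ 0 := by
        intro h
        have h2 : b - a = 0 := Fin.ext (by simpa using h)
        exact this.2.1 (sub_eq_zero.1 h2).symm
      have h2 := this.2.2
      rw [Finset.mem_range]
      show (b - a).val - 1 < d
      have h3 : (b - a).val ≤ d := h2
      omega
    have hinj : Set.InjOn (fun a : Fin m => (b - a).val - 1)
        (Finset.univ.filter fun a => (a, b) ∈ E) := by
      intro a ha a' ha' h
      have key : ∀ a, a ∈ ((Finset.univ.filter fun a => (a, b) ∈ E : Finset (Fin m)) : Set (Fin m))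
          → (b - a).val ≠ 0 := by
        intro a ha h
        rw [Finset.mem_coe, Finset.mem_filter] at ha
        have := hEF ha.2
        rw [hF, Finset.mem_filter] at this
        have h2 : b - a = 0 := Fin.ext (by simpa using h)
        exact this.2.1 (sub_eq_zero.1 h2).symm
      have h1 := key a ha
      have h2 := key a' ha'
      have h3 : (b - a).val - 1 = (b - a').val - 1 := h
      have h4 : b - a = b - a' := Fin.ext (by omega)
      exact sub_right_injective h4
    have := Finset.card_le_card_of_injOn _ hmaps hinj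
    rwa [Finset.card_range] at this

section Coef

variable {m : ℕ} (E : Finset (Idx m)) (c θ : ℝ)

/-- the coefficients attached to a graph -/
noncomputable def cf (i : Idx m) : ℝ := if i.1 = i.2 then c else if i ∈ E then θ else 0

/-- the indices of the tuple -/
def PE (i : Idx m) : Prop := i.1 = i.2 ∨ i ∈ E

instance : DecidablePred (PE E) := fun i => inferInstanceAs (Decidable (i.1 = i.2 ∨ i ∈ E))

theorem PE_diag (a : Fin m) : PE E (a, a) := Or.inl rfl

theorem cf_diag (a : Fin m) : cf E c θ (a, a) = c := by simp [cf]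

theorem cf_off (a b : Fin m) (hab : a ≠ b) : cf E c θ (a, b) = if (a, b) ∈ E then θ else 0 := by
  simp [cf, hab]

theorem cf_nonneg (hc : 0 ≤ c) (hθ : 0 ≤ θ) (i : Idx m) : 0 ≤ cf E c θ i := by
  unfold cf
  split_ifs
  · exact hc
  · exact hθ
  · exact le_rfl

theorem cf_abs (hc : 0 ≤ c) (hc1 : c ≤ 1) (hθ : 0 ≤ θ) (hθ1 : θ ≤ 1) (i : Idx m) :
    |cf E c θ i| ≤ 1 := by
  rw [abs_of_nonneg (cf_nonneg E c θ hc hθ i)]
  unfold cf
  split_ifs
  · exact hc1
  · exact hθ1
  · exact zero_le_one

theorem cf_row (d : ℕ) (a : Fin m)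
    (hE : (Finset.univ.filter fun b => (a, b) ∈ E).card ≤ d) :
    ∑ b ∈ Finset.univ.filter (fun b => b ≠ a), cf E c θ (a, b) ^ 2 ≤ d * θ ^ 2 := by
  have h1 : ∀ b ∈ Finset.univ.filter (fun b => b ≠ a), cf E c θ (a, b) ^ 2 =
      if (a, b) ∈ E then θ ^ 2 else 0 := by
    intro b hb
    rw [Finset.mem_filter] at hb
    rw [cf_off E c θ a b hb.2.symm]
    split_ifs <;> simp
  rw [Finset.sum_congr rfl h1, ← Finset.sum_filter, Finset.sum_const, nsmul_eq_mul]
  refine mul_le_mul_of_nonneg_right ?_ (sq_nonneg _)
  have h2 : (Finset.filter (fun b => (a, b) ∈ E) (Finset.univ.filter fun b => b ≠ a)).card ≤ d :=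
    le_trans (Finset.card_le_card (Finset.filter_subset_filter _ (Finset.subset_univ _))) hE
  exact_mod_cast h2

theorem cf_col (d : ℕ) (a : Fin m)
    (hE : (Finset.univ.filter fun b => (b, a) ∈ E).card ≤ d) :
    ∑ b ∈ Finset.univ.filter (fun b => b ≠ a), cf E c θ (b, a) ^ 2 ≤ d * θ ^ 2 := by
  have h1 : ∀ b ∈ Finset.univ.filter (fun b => b ≠ a), cf E c θ (b, a) ^ 2 =
      if (b, a) ∈ E then θ ^ 2 else 0 := by
    intro b hb
    rw [Finset.mem_filter] at hb
    rw [cf_off E c θ b a hb.2]
    split_ifs <;> simp
  rw [Finset.sum_congr rfl h1, ← Finset.sum_filter, Finset.sum_const, nsmul_eq_mul]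
  refine mul_le_mul_of_nonneg_right ?_ (sq_nonneg _)
  have h2 : (Finset.filter (fun b => (b, a) ∈ E) (Finset.univ.filter fun b => b ≠ a)).card ≤ d :=
    le_trans (Finset.card_le_card (Finset.filter_subset_filter _ (Finset.subset_univ _))) hE
  exact_mod_cast h2

variable (hE : ∀ p ∈ E, p.1 ≠ p.2)

include hE in
/-- sums over the indices of the tuple -/
theorem sum_PE {A : Type*} [AddCommMonoid A] (F : Idx m → A) :
    ∑ i : {i // PE E i}, F i = ∑ a : Fin m, F (a, a) + ∑ p ∈ E, F p := by
  have h1 : ∑ i : {i // PE E i}, F i = ∑ i ∈ Finset.univ.filter (PE E), F i := by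
    rw [Finset.sum_subtype (Finset.univ.filter (PE E)) (p := PE E) (by simp) F]
  have h2 : Finset.univ.filter (PE E) = (Finset.univ.filter fun i : Idx m => i.1 = i.2) ∪ E := by
    ext i
    simp [PE]
  have h3 : Disjoint (Finset.univ.filter fun i : Idx m => i.1 = i.2) E := by
    rw [Finset.disjoint_left]
    intro i hi hiE
    rw [Finset.mem_filter] at hi
    exact hE i hiE hi.2
  rw [h1, h2, Finset.sum_union h3]
  congr 1
  symm
  refine Finset.sum_bij (fun a _ => (a, a)) ?_ ?_ ?_ ?_
  · intro a _
    simp
  · intro a _ b _ h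
    exact (Prod.mk.inj h).1
  · rintro ⟨a, b⟩ hi
    rw [Finset.mem_filter] at hi
    have h : a = b := hi.2
    subst h
    exact ⟨a, Finset.mem_univ _, rfl⟩
  · intro a _
    rfl

include hE in
theorem card_PE : Fintype.card {i // PE E i} = m + E.card := by
  have h := sum_PE E hE (fun _ => 1)
  simpa using h

end Coef

end Vale.Agent.P087.H894
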