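import Vale.Agent.P087.H894.Model

/-! The sharp lower bound for the microstates entropy, with `liminf` in place of `limsup`. -/

set_option autoImplicit false

open MeasureTheory Filter ProbabilityTheory
open scoped ENNReal NNReal Topology

namespace Vale.Agent.P087.H894

open Vale.Agent.P087

variable {m : ℕ}

/-- the exact value -/
noncomputable def ent (P : Idx m → Prop) [DecidablePred P] (c : ℝ) : ℝ :=
  ∑ i : {i // P i}, 1 / 2 * Real.log (2 * Real.pi * Real.exp 1 * scl c (i : Idx m) ^ 2)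

/-- the logarithmic volumes, normalised -/
noncomputable def lv {ι : Type} [Fintype ι] (μ : List ι → ℂ) (R : ℝ) (M : ℕ) (ε : ℝ) (k : ℕ) :
    EReal :=
  ((((k : ℝ) ^ 2)⁻¹ : ℝ) : EReal) * ENNReal.log (volume (microstates μ R M k ε))
        + (((Fintype.card ι : ℝ) / 2 * Real.log k : ℝ) : EReal)

theorem EReal_le_of_forall (a : ℝ) (K : ℝ) (L : EReal) (hK : 0 ≤ K)
    (h : ∀ η : ℝ, 0 < η → ((a - K * η : ℝ) : EReal) ≤ L) : (a : EReal) ≤ L := by
  by_contra hcon
  rw [not_le] at hcon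
  obtain ⟨r, hr1, hr2⟩ := EReal.lt_iff_exists_real_btwn.1 hcon
  rw [EReal.coe_lt_coe_iff] at hr2
  have h1 := h ((a - r) / (K + 1)) (by
    have : 0 < a - r := by linarith
    positivity)
  have h2 : r ≤ a - K * ((a - r) / (K + 1)) := by
    have h3 : K * ((a - r) / (K + 1)) ≤ a - r := by
      rw [mul_div_assoc', div_le_iff₀ (by positivity)]
      nlinarith
    linarith
  have h4 : (r : EReal) ≤ L := le_trans (EReal.coe_le_coe_iff.2 h2) h1
  exact absurd hr1 (not_lt.2 h4)

theorem lower_bound (P : Idx m → Prop) [DecidablePred P] (hP : ∀ a, P (a, a))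
    (q : Idx m → ℝ) (c : ℝ) (hc : 0 < c) (hqa : ∀ a, q (a, a) = c) (hq1 : ∀ i, |q i| ≤ 1) :
    ∃ R1 : ℝ, 0 < R1 ∧ ∀ R, R1 ≤ R → ∀ (M : ℕ) (ε : ℝ), 0 < ε →
      (ent P c : EReal) ≤
        liminf (lv (fun w : List {i // P i} => lawQ q 0 (w.map Subtype.val)) R M ε) atTop := by
  obtain ⟨R0, hR0, hnorm⟩ := gue_norm
  refine ⟨R0 ^ 3 + R0, by positivity, fun R hR M ε hε => ?_⟩
  set N : ℝ := (Fintype.card {i // P i} : ℝ) with hN
  have hN0 : 0 ≤ N := by positivity
  refine EReal_le_of_forall _ (N / 2 + 1) _ (by positivity) fun η hη => ?_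
  refine le_liminf_of_le (by isBoundedDefault) ?_
  have hscl : ∀ i : {i // P i}, 0 < scl c (i : Idx m) := by
    intro i
    unfold scl
    split_ifs
    · exact hc
    · exact one_pos
  have hlog : ∀ᶠ k : ℕ in atTop, ((k : ℝ) ^ 2)⁻¹ * Real.log 2 ≤ η := by
    have h1 : Tendsto (fun k : ℕ => ((k : ℝ) ^ 2)⁻¹ * Real.log 2) atTop (𝓝 (0 * Real.log 2)) := by
      refine Tendsto.mul_const _ ?_
      exact (tendsto_inv_atTop_zero.comp ((tendsto_pow_atTop two_ne_zero).comp
        tendsto_natCast_atTop_atTop))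
    rw [zero_mul] at h1
    exact (h1.eventually (gt_mem_nhds hη)).mono fun k hk => hk.le
  filter_upwards [typ_half P hP q R0 hnorm M ε η hε hη, eventually_ge_atTop 1, hlog]
    with k hk hk1 hk2
  have hkpos : (0 : ℝ) < k := by exact_mod_cast hk1
  set Γ := microstates (fun w : List {i // P i} => lawQ q 0 (w.map Subtype.val)) R M k ε with hΓ
  have hv : ((k : ℝ≥0)⁻¹) ≠ 0 := by
    rw [Ne, inv_eq_zero, Nat.cast_eq_zero]
    omega
  have hherm : ∀ (x : {i // P i} → Fin k → Fin k → ℝ) (i : {i // P i}),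
      herm k (scl c (i : Idx m) • x i +
        shrP P q c k (fun j => scl c (j : Idx m) • x j) i) = XmQ q k (ext P k x) i := by
    intro x i
    have h1 := herm_psiQ q c hc.ne' hqa k (ext P k x)
      (ext P k fun j => scl c (j : Idx m) • x j) i (by
        intro a
        unfold ext
        rw [dif_pos (hP a), dif_pos (hP a)]
        show scl c (a, a) • x ⟨(a, a), hP a⟩ = c • x ⟨(a, a), hP a⟩
        unfold scl
        rw [if_pos rfl])
    rw [ext_apply] at h1
    exact h1
  have h1 := gaussian_typ_le (fun i : {i // P i} => (i : Idx m).1 = (i : Idx m).2) k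
    ((k : ℝ≥0)⁻¹) hv (fun i => scl c (i : Idx m)) hscl (shrP P q c k) (measurable_shrP P q c k)
    (fun x i hi => shrP_diag P q c k x i hi) (fun x y h => shrP_dep P q c k x y h)
    ((k : ℝ) ^ 2 * (1 - η)) Γ (typ P q R0 M ε η k)
    (by
      intro x hx i
      have h2 := hx.2.1 i
      refine le_trans (le_of_eq ?_) h2
      rw [NNReal.coe_inv, NNReal.coe_natCast]
      field_simp)
    (by
      intro x hx
      refine ⟨fun j => ?_, fun w hw1 hw2 => ?_⟩
      · rw [hherm x j]
        refine le_trans (norm_XmQ_le q R0 hq1 hR0.le k (ext P k x) j ?_ ?_ ?_) hR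
        · have h3 := hx.1 ⟨((j : Idx m).1, (j : Idx m).1), hP _⟩
          rwa [← ext_apply P k x] at h3
        · have h3 := hx.1 ⟨((j : Idx m).2, (j : Idx m).2), hP _⟩
          rwa [← ext_apply P k x] at h3
        · rw [ext_apply]
          exact hx.1 j
      · have h3 : (fun j : {i // P i} => herm k (scl c (j : Idx m) • x j +
            shrP P q c k (fun j => scl c (j : Idx m) • x j) j)) =
            fun j : {i // P i} => XmQ q k (ext P k x) j := by
          funext j
          exact hherm x j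
        rw [h3]
        exact hx.2.2 w hw1 hw2)
  have h3 : (1 / 2 : ℝ≥0∞) ≤ _ := hk.trans h1
  -- the constant
  set Q : ℝ := ∏ i : {i // P i}, ((Real.sqrt (2 * Real.pi *
    (scl c (i : Idx m) ^ 2 * ((k : ℝ≥0)⁻¹ : ℝ≥0))))⁻¹ ^ (k * k) *
      Real.exp (-((k : ℝ) ^ 2 * (1 - η)) / 2)) with hQ
  have hvpos : (0 : ℝ) < ((k : ℝ≥0)⁻¹ : ℝ≥0) := by
    rw [NNReal.coe_inv, NNReal.coe_natCast]
    positivity
  have hfac : ∀ i : {i // P i}, 0 < (Real.sqrt (2 * Real.pi *
    (scl c (i : Idx m) ^ 2 * ((k : ℝ≥0)⁻¹ : ℝ≥0))))⁻¹ ^ (k * k) := by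
    intro i
    have := hscl i
    positivity
  have hQpos : 0 < Q := Finset.prod_pos (fun i _ => mul_pos (hfac i) (Real.exp_pos _))
  have h4 : ENNReal.ofReal (1 / (2 * Q)) ≤ volume Γ := by
    have h6 : ENNReal.ofReal (1 / (2 * Q)) = (1 / 2 : ℝ≥0∞) / ENNReal.ofReal Q := by
      rw [show 1 / (2 * Q) = (1 / 2) / Q by field_simp, ENNReal.ofReal_div_of_pos hQpos]
      congr 1
      rw [ENNReal.ofReal_div_of_pos (by norm_num)]
      simp
    rw [h6]
    refine ENNReal.div_le_of_le_mul ?_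
    rw [mul_comm]
    exact h3
  have h7 : ((Real.log (1 / (2 * Q)) : ℝ) : EReal) ≤ ENNReal.log (volume Γ) := by
    rw [← ENNReal.log_ofReal_of_pos (by positivity)]
    exact ENNReal.log_monotone h4
  have h8 : ((((k : ℝ) ^ 2)⁻¹ : ℝ) : EReal) * ((Real.log (1 / (2 * Q)) : ℝ) : EReal) ≤
      ((((k : ℝ) ^ 2)⁻¹ : ℝ) : EReal) * ENNReal.log (volume Γ) :=
    mul_le_mul_of_nonneg_left h7 (EReal.coe_nonneg.2 (by positivity))
  unfold lv
  refine le_trans ?_ (add_le_add_left h8 _)
  rw [← EReal.coe_mul, ← EReal.coe_add, EReal.coe_le_coe_iff]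
  have hlogf : ∀ i : {i // P i}, Real.log ((Real.sqrt (2 * Real.pi *
      (scl c (i : Idx m) ^ 2 * ((k : ℝ≥0)⁻¹ : ℝ≥0))))⁻¹ ^ (k * k) *
        Real.exp (-((k : ℝ) ^ 2 * (1 - η)) / 2)) =
      -(k : ℝ) ^ 2 * (1 / 2 * Real.log (2 * Real.pi * Real.exp 1 * scl c (i : Idx m) ^ 2)
        - 1 / 2 * Real.log k - η / 2) := by
    intro i
    have hs := hscl i
    have hpi := Real.pi_pos
    have e1 : Real.log (2 * Real.pi * (scl c (i : Idx m) ^ 2 * ((k : ℝ≥0)⁻¹ : ℝ≥0))) =
        Real.log (2 * Real.pi) + 2 * Real.log (scl c (i : Idx m)) - Real.log k := by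
      rw [NNReal.coe_inv, NNReal.coe_natCast,
        Real.log_mul (show 2 * Real.pi ≠ 0 by positivity) (by positivity),
        Real.log_mul (show scl c (i : Idx m) ^ 2 ≠ 0 by positivity)
          (show (k : ℝ)⁻¹ ≠ 0 by positivity), Real.log_pow, Real.log_inv]
      push_cast
      ring
    have e2 : Real.log (2 * Real.pi * Real.exp 1 * scl c (i : Idx m) ^ 2) =
        Real.log (2 * Real.pi) + 1 + 2 * Real.log (scl c (i : Idx m)) := by
      rw [Real.log_mul (show 2 * Real.pi * Real.exp 1 ≠ 0 by positivity) (by positivity),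
        Real.log_mul (show 2 * Real.pi ≠ 0 by positivity) (Real.exp_pos 1).ne', Real.log_exp,
        Real.log_pow]
      push_cast
      ring
    rw [Real.log_mul (hfac i).ne' (Real.exp_pos _).ne', Real.log_exp, Real.log_pow,
      Real.log_inv, Real.log_sqrt (by positivity), e1, e2]
    push_cast
    ring
  have hlogQ : Real.log Q = -(k : ℝ) ^ 2 * (ent P c - N / 2 * Real.log k - N * η / 2) := by
    rw [hQ, Real.log_prod (fun i _ => (mul_pos (hfac i) (Real.exp_pos _)).ne')]
    simp only [hlogf]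
    rw [← Finset.mul_sum, Finset.sum_sub_distrib, Finset.sum_sub_distrib, Finset.sum_const,
      Finset.sum_const, Finset.card_univ, nsmul_eq_mul, nsmul_eq_mul, ent, hN]
    ring
  have h9 : Real.log (1 / (2 * Q)) = -Real.log 2 - Real.log Q := by
    rw [one_div, Real.log_inv, Real.log_mul (by norm_num) hQpos.ne']
    ring
  have h10 : ((k : ℝ) ^ 2)⁻¹ * Real.log (1 / (2 * Q)) + N / 2 * Real.log k =
      -(((k : ℝ) ^ 2)⁻¹ * Real.log 2) + ent P c - N * η / 2 := by
    rw [h9, hlogQ]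
    field_simp
    ring
  rw [h10]
  nlinarith

end Vale.Agent.P087.H894
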