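import Vale.Agent.P087.H894.Semi
import Vale.Agent.P087.H894.Defs

/-! Assembly of the stronger statement. -/

set_option autoImplicit false
set_option linter.unusedSectionVars false

open MeasureTheory Filter
open scoped ENNReal NNReal Topology

namespace Vale.Agent.P087.H894

open Vale.Agent.P087 Vale.Agent.P087.VN

variable {m : ℕ}

theorem chiR_FD {ι : Type} [Fintype ι] [DecidableEq ι] (μ : List ι → ℂ) (R : ℝ) (hR : 0 ≤ R) :
    FD.chiR μ R = chiR μ R := by
  unfold FD.chiR chiR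
  simp only [FD.microstates_eq μ R hR]

theorem chiRLow_FD {ι : Type} [Fintype ι] [DecidableEq ι] (μ : List ι → ℂ) (R : ℝ)
    (hR : 0 ≤ R) :
    FD.chiRLow μ R = ⨅ (M : ℕ) (ε : ℝ) (_ : 0 < ε), liminf (lv μ R M ε) atTop := by
  unfold FD.chiRLow lv
  simp only [FD.microstates_eq μ R hR]

theorem chiRLow_le {ι : Type} [Fintype ι] [DecidableEq ι] (μ : List ι → ℂ) (R : ℝ) :
    FD.chiRLow μ R ≤ FD.chiR μ R := by
  unfold FD.chiRLow FD.chiR
  refine iInf_mono fun M => iInf_mono fun ε => iInf_mono fun _ => ?_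
  exact liminf_le_limsup

section Micro

variable (P : Idx m → Prop) [DecidablePred P] (hP : ∀ a, P (a, a)) {n : ℕ}
  (e : Fin n ≃ {i // P i}) (q : Idx m → ℝ) (c : ℝ)

/-- the law of the tuple indexed by `Fin n` -/
noncomputable def mu (w : List (Fin n)) : ℂ := lawQ q 0 (w.map fun j => (e j : Idx m))

theorem mu_eq : mu P e q = fun w : List (Fin n) => lawP P q (w.map e) := by
  funext w
  unfold mu lawP
  rw [List.map_map]
  rfl

include hP in
theorem micro_exact (hc : 0 < c) (hq : ∀ a, q (a, a) = c) (hq1 : ∀ i, |q i| ≤ 1) :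
    FD.chi (mu P e q) = (ent P c : EReal) ∧ ∃ R₀ : ℝ, ∀ R, R₀ ≤ R →
      FD.chiRLow (mu P e q) R = (ent P c : EReal) ∧ FD.chiR (mu P e q) R = (ent P c : EReal) := by
  obtain ⟨R1, hR1, hlow⟩ := lower_bound P hP q c hc hq hq1
  have hup : ∀ R, chiR (mu P e q) R ≤ (ent P c : EReal) := by
    intro R
    rw [mu_eq, chiR_reindex e]
    exact upper_bound P hP q c hc hq hq1 R
  have hlow' : ∀ R, R1 ≤ R → (ent P c : EReal) ≤ FD.chiRLow (mu P e q) R := by
    intro R hR
    rw [chiRLow_FD _ _ (hR1.le.trans hR)]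
    refine le_iInf fun M => le_iInf fun ε => le_iInf fun hε => ?_
    have h1 := hlow R hR M ε hε
    have h2 : lv (mu P e q) R M ε = lv (lawP P q) R M ε := by
      funext k
      unfold lv
      rw [mu_eq, volume_microstates_reindex e (lawP P q), Fintype.card_congr e]
    rw [h2]
    exact h1
  have hall : ∀ R, R1 ≤ R → FD.chiRLow (mu P e q) R = (ent P c : EReal) ∧
      FD.chiR (mu P e q) R = (ent P c : EReal) := by
    intro R hR
    have h0 : 0 ≤ R := hR1.le.trans hR
    have h1 := hlow' R hR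
    have h2 := chiRLow_le (mu P e q) R
    have h3 : FD.chiR (mu P e q) R ≤ (ent P c : EReal) := by
      rw [chiR_FD _ _ h0]
      exact hup R
    exact ⟨le_antisymm (h2.trans h3) h1, le_antisymm h3 (h1.trans h2)⟩
  refine ⟨le_antisymm ?_ ?_, R1, hall⟩
  · rw [FD.chi_eq]
    unfold Vale.Agent.P087.chi
    exact iSup₂_le fun R _ => hup R
  · rw [← (hall R1 le_rfl).2]
    unfold FD.chi
    exact le_iSup₂_of_le R1 hR1 le_rfl

theorem ent_reindex : ent P c =
    ∑ j : Fin n, 1 / 2 * Real.log (2 * Real.pi * Real.exp 1 * scl c (e j : Idx m) ^ 2) := by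
  unfold ent
  exact (Equiv.sum_comp e fun i : {i // P i} =>
    1 / 2 * Real.log (2 * Real.pi * Real.exp 1 * scl c (i : Idx m) ^ 2)).symm

end Micro

theorem potT_degree {κ : Type} [Fintype κ] [DecidableEq κ] (f : κ → Idx m) (d : Fin m → κ)
    (q : Idx m → ℝ) (c : ℝ) (j : κ) (v : List κ) (hv : 6 < v.length) :
    potT f d q c j v = 0 := by
  have hs : ∀ (u : List κ) (z : ℂ), u.length ≤ 6 → (Finsupp.single u z) v = 0 := by
    intro u z hu
    rw [Finsupp.single_apply, if_neg]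
    rintro rfl
    omega
  unfold potT
  by_cases h : (f j).1 = (f j).2
  · rw [if_pos h]
    exact hs _ _ (by simp)
  · rw [if_neg h]
    simp only [Finsupp.add_apply, Finsupp.sub_apply]
    rw [hs _ _ (by simp), hs _ _ (by simp), hs _ _ (by simp), hs _ _ (by simp)]
    ring

theorem log_25_le : Real.log 25 ≤ 3.4658 := by
  have h1 : Real.log 25 ≤ Real.log 32 := Real.log_le_log (by norm_num) (by norm_num)
  have h2 : Real.log 32 = 5 * Real.log 2 := by
    rw [show (32 : ℝ) = 2 ^ 5 by norm_num, Real.log_pow]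
    norm_num
  have h3 := Real.log_two_lt_d9
  rw [h2] at h1
  linarith

/-- the main result -/
theorem main (n : ℕ) (hn : 10 ^ 50 ≤ n) :
    ∃ (H : Type) (_ : NormedAddCommGroup H) (_ : InnerProductSpace ℂ H) (_ : CompleteSpace H),
      FD.StrongGap H n := by
  obtain ⟨D, hD⟩ : ∃ D : ℕ, D = 8 * 10 ^ 24 := ⟨_, rfl⟩
  obtain ⟨m, hm⟩ : ∃ m : ℕ, m = (n + D) / (D + 1) := ⟨_, rfl⟩
  have hm1 : n ≤ m * (D + 1) := by
    have h1 := Nat.div_add_mod (n + D) (D + 1)
    have h2 := Nat.mod_lt (n + D) (show 0 < D + 1 by omega)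
    rw [← hm] at h1
    rw [mul_comm]
    omega
  have hm2 : m * (D + 1) ≤ n + D := by
    rw [hm]
    exact Nat.div_mul_le_self _ _
  have hmD : D < m := by
    by_contra hcon
    push Not at hcon
    have h1 : m * (D + 1) ≤ D * (D + 1) := Nat.mul_le_mul_right _ hcon
    have h2 : D * (D + 1) < 10 ^ 50 := by
      rw [hD]; norm_num
    omega
  have hmn : m ≤ n := by
    by_contra hcon
    push Not at hcon
    have h1 : (n + 1) * (D + 1) ≤ m * (D + 1) := Nat.mul_le_mul_right _ hcon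
    have h2 : (n + 1) * (D + 1) = n * D + n + D + 1 := by ring
    have h3 : 0 ≤ n * D := Nat.zero_le _
    omega
  have he : n - m ≤ m * D := by
    have h2 : m * (D + 1) = m * D + m := by ring
    omega
  obtain ⟨E, hEc, hEo, hEr, hEl⟩ := exists_graph m D (n - m) hmD he
  set c₀ : ℝ := 1 / 8000 with hc₀
  set θ : ℝ := 1 / 10 ^ 12 with hθ
  have hc₀pos : 0 < c₀ := by rw [hc₀]; norm_num
  have hc₀1 : c₀ ≤ 1 := by rw [hc₀]; norm_num
  have hθpos : 0 < θ := by rw [hθ]; norm_num
  have hθ1 : θ ≤ 1 := by rw [hθ]; norm_num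
  set q : Idx m → ℝ := cf E c₀ θ with hq
  have hcard : Fintype.card {i // PE E i} = n := by
    rw [card_PE E hEo, hEc]
    omega
  let e : Fin n ≃ {i // PE E i} := (Fintype.equivFinOfCardEq hcard).symm
  let f : Fin n → Idx m := fun j => (e j : Idx m)
  have hf : Function.Injective f := fun i j h => e.injective (Subtype.ext h)
  let d : Fin m → Fin n := fun a => e.symm ⟨(a, a), PE_diag E a⟩
  have hd : ∀ a, f (d a) = (a, a) := by
    intro a
    show ((e (e.symm ⟨(a, a), PE_diag E a⟩) : {i // PE E i}) : Idx m) = (a, a)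
    rw [e.apply_symm_apply]
  have hqd : ∀ a, q (a, a) = c₀ := cf_diag E c₀ θ
  have hq00 : ∀ i, 0 ≤ q i := cf_nonneg E c₀ θ hc₀pos.le hθpos.le
  have hqabs : ∀ i, |q i| ≤ 1 := cf_abs E c₀ θ hc₀pos.le hc₀1 hθpos.le hθ1
  have hqoff : ∀ a b, a ≠ b → q (a, b) ≤ θ := by
    intro a b hab
    rw [hq, cf_off E c₀ θ a b hab]
    split_ifs
    · exact le_rfl
    · exact hθpos.le
  have hDθ : (D : ℝ) * θ ^ 2 = 8 := by
    rw [hD, hθ]; push_cast; norm_num
  have hrow : ∀ a, ∑ b ∈ Finset.univ.filter (fun b => b ≠ a), q (a, b) ^ 2 ≤ 8 := by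
    intro a
    rw [← hDθ]
    exact cf_row E c₀ θ D a (hEr a)
  have hcol : ∀ a, ∑ b ∈ Finset.univ.filter (fun b => b ≠ a), q (b, a) ^ 2 ≤ 8 := by
    intro a
    rw [← hDθ]
    exact cf_col E c₀ θ D a (hEl a)
  have hqz : ∀ a b, a ≠ b → (∀ j, f j ≠ (a, b)) → q (a, b) = 0 := by
    intro a b hab h
    rw [hq, cf_off E c₀ θ a b hab, if_neg]
    intro hE
    apply h (e.symm ⟨(a, b), Or.inr hE⟩)
    show ((e (e.symm ⟨(a, b), Or.inr hE⟩) : {i // PE E i}) : Idx m) = (a, b)
    rw [e.apply_symm_apply]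
  -- laws
  have hlaw : law (vac (Big m)) (fun j => tupQ q (f j)) = mu (PE E) e q := by
    funext w
    rw [law_reindex, law_tupQ0]
    rfl
  have hlawt : ∀ t, 0 < t → law (vac (Big m))
      (fun j => tupQ q (f j) + ((Real.sqrt t : ℝ) : ℂ) • tupS m (f j)) =
        fun w => lawQ q t (w.map f) := by
    intro t ht
    funext w
    rw [← law_tupQ q ht.le]
    exact law_reindex (vac (Big m))
      (fun i => tupQ q i + ((Real.sqrt t : ℝ) : ℂ) • tupS m i) f w
  -- the scaled semicirculars are the tuple without edges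
  have hsc : ∀ i : Idx m, (scl c₀ i : ℂ) • tupG i = tupQ (q0 c₀) i := by
    rintro ⟨a, b⟩
    by_cases hab : a = b
    · subst hab
      rw [tupQ_diag]
      simp [scl, q0]
    · rw [tupQ_off _ a b hab]
      simp [scl, q0, hab]
  have hlaw0 : law (vac (Big m)) (fun j => (scl c₀ (f j) : ℂ) • tupG (f j)) =
      mu (PE E) e (q0 c₀) := by
    have h1 : (fun j => (scl c₀ (f j) : ℂ) • tupG (f j)) = fun j => tupQ (q0 c₀) (f j) := by
      funext j
      exact hsc (f j)
    rw [h1]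
    funext w
    rw [law_reindex, law_tupQ0]
    rfl
  have hlawt0 : ∀ t, 0 < t → law (vac (Big m))
      (fun j => (scl c₀ (f j) : ℂ) • tupG (f j) + ((Real.sqrt t : ℝ) : ℂ) • tupS m (f j)) =
        fun w => lawQ (q0 c₀) t (w.map f) := by
    intro t ht
    funext w
    rw [← law_tupQ (q0 c₀) ht.le]
    have h1 : (fun j => (scl c₀ (f j) : ℂ) • tupG (f j) +
        ((Real.sqrt t : ℝ) : ℂ) • tupS m (f j)) = fun j => tupQ (q0 c₀) (f j) +
        ((Real.sqrt t : ℝ) : ℂ) • tupS m (f j) := by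
      funext j
      rw [hsc (f j)]
    rw [h1]
    exact law_reindex (vac (Big m))
      (fun i => tupQ (q0 c₀) i + ((Real.sqrt t : ℝ) : ℂ) • tupS m i) f w
  have hent : ent (PE E) c₀ = FD.semiEnt fun j => scl c₀ (f j) := ent_reindex (PE E) e c₀
  have hst := isFNTState (Big m)
  have hfree := isFreeSemicircularFrom f hf q
  have hex := micro_exact (PE E) (PE_diag E) e q c₀ hc₀pos hqd hqabs
  have hex0 := micro_exact (PE E) (PE_diag E) e (q0 c₀) c₀ hc₀pos (fun a => by simp [q0])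
    (fun i => by
      unfold q0
      split_ifs
      · rw [abs_of_pos hc₀pos]; exact hc₀1
      · simp)
  rw [hent] at hex hex0
  refine ⟨Fock (Big m), inferInstance, inferInstance, inferInstance, vna (Big m), vac (Big m),
    fun j => tupG (f j), fun j => tupQ q (f j), fun j => tupS m (f j),
    fun j => d (f j).1, fun j => d (f j).2, fun j => scl c₀ (f j),
    fun j => if (f j).1 = (f j).2 then 0 else q (f j), pot f d q c₀,
    ⟨hst.map_one, hst.tracial, hst.faithful⟩, ⟨hst.normal⟩,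
    ⟨fun j => ?_, fun j k => tupG_even _ _, fun j k => tupG_odd _ _, free_tupG f hf⟩,
    fun j => tupQ_selfAdjoint q (f j), ⟨hfree.selfAdjoint, hfree.even, hfree.odd, hfree.free⟩,
    ⟨fun j => ?_, fun j => ⟨?_, ?_, ?_⟩, fun j => ⟨?_, ?_⟩,
      adjoin_eq f d hd q c₀ hc₀pos.ne' hqd⟩,
    ⟨fun v hv => ?_, pot_reverse f d q c₀, ?_⟩, ⟨?_, ?_, ?_, ?_, ?_⟩⟩
  · show IsSelfAdjoint (tupG (f j))
    rw [tupG_eq]
    exact star_gen _
  · show tupQ q (f j) = (scl c₀ (f j) : ℂ) • tupG (f j) +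
      ((if (f j).1 = (f j).2 then 0 else q (f j) : ℝ) : ℂ) •
        (tupG (f (d (f j).1)) * tupG (f (d (f j).2)) * tupG (f (d (f j).1)))
    rw [hd, hd]
    rcases hfj : f j with ⟨a, b⟩
    by_cases hab : a = b
    · subst hab
      rw [tupQ_diag, hqd]
      simp [scl]
    · rw [tupQ_off q a b hab]
      simp [scl, hab, add_comm]
  · show 0 < scl c₀ (f j)
    unfold scl
    split_ifs
    · exact hc₀pos
    · exact one_pos
  · show scl c₀ (f j) ≤ 1
    unfold scl
    split_ifs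
    · exact hc₀1
    · exact le_rfl
  · show |if (f j).1 = (f j).2 then 0 else q (f j)| ≤ 1 / 10 ^ 12
    split_ifs with h
    · rw [abs_zero]; positivity
    · rw [abs_of_nonneg (hq00 _)]
      exact hqoff (f j).1 (f j).2 h
  · show (if (f (d (f j).1)).1 = (f (d (f j).1)).2 then 0 else q (f (d (f j).1))) = 0
    rw [hd, if_pos rfl]
  · show (if (f (d (f j).2)).1 = (f (d (f j).2)).2 then 0 else q (f (d (f j).2))) = 0
    rw [hd, if_pos rfl]
  · unfold pot
    rw [Finsupp.finsetSum_apply]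
    exact Finset.sum_eq_zero fun j _ => potT_degree f d q c₀ j v hv
  · intro j w
    have h1 := gibbs f d q c₀ hc₀pos.ne' hqd hd hf hqz j w
    have h2 : FD.law (vac (Big m)) (fun j => tupQ q (f j)) = fun w => lawQ q 0 (w.map f) := hlaw
    rw [h2]
    exact h1
  · exact (congrArg FD.chi hlaw0).trans hex0.1
  · have h1 : chiStar (fun t => law (vac (Big m)) fun j => (scl c₀ (f j) : ℂ) • tupG (f j) +
        ((Real.sqrt t : ℝ) : ℂ) • tupS m (f j)) =
        chiStar (fun t => fun w => lawQ (q0 c₀) t (w.map f)) :=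
      chiStar_congr fun t ht => hlawt0 t ht
    exact h1.trans (chiStar_semi f hf c₀ hc₀pos hc₀1)
  · exact (congrArg FD.chi hlaw).trans hex.1
  · obtain ⟨R₀, hR₀⟩ := hex.2
    refine ⟨R₀, fun R hR => ?_⟩
    have h1 := hR₀ R hR
    exact ⟨(congrArg (fun μ => FD.chiRLow μ R) hlaw).trans h1.1,
      (congrArg (fun μ => FD.chiR μ R) hlaw).trans h1.2⟩
  · have h1 : chiStar (fun t => law (vac (Big m)) fun j => tupQ q (f j) +
        ((Real.sqrt t : ℝ) : ℂ) • tupS m (f j)) =
        chiStar (fun t => fun w => lawQ q t (w.map f)) :=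
      chiStar_congr fun t ht => hlawt t ht
    have h2 := chiStar_lawQ_ge f hf q c₀ θ hc₀ hq00 hqd hqoff hrow hcol hθpos.le hθ.le
    rw [← h1] at h2
    refine le_trans ?_ h2
    rw [EReal.coe_le_coe_iff]
    have h3 : ∑ j : Fin n, (if (f j).1 = (f j).2 then - Real.log 25 else 99 / 125 * q (f j) ^ 2)
        = m * (- Real.log 25) + (n - m : ℕ) * (99 / 125 * θ ^ 2) := by
      have h4 := Equiv.sum_comp e fun i : {i // PE E i} =>
        (if (i : Idx m).1 = (i : Idx m).2 then - Real.log 25 else 99 / 125 * q (i : Idx m) ^ 2)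
      have h5 := sum_PE E hEo fun i : Idx m =>
        (if i.1 = i.2 then - Real.log 25 else 99 / 125 * q i ^ 2)
      rw [h5] at h4
      refine h4.trans ?_
      congr 1
      · simp
      · have h6 : ∀ p ∈ E, (if p.1 = p.2 then - Real.log 25 else 99 / 125 * q p ^ 2) =
            99 / 125 * θ ^ 2 := by
          intro p hp
          rw [if_neg (hEo p hp)]
          obtain ⟨a, b⟩ := p
          rw [hq, cf_off E c₀ θ a b (hEo _ hp), if_pos hp]
        rw [Finset.sum_congr rfl h6, Finset.sum_const, hEc, nsmul_eq_mul]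
    show FD.semiEnt (fun j => scl c₀ (f j)) + 1 / 10 ^ 25 * (n : ℝ) ≤ _
    unfold FD.semiEnt
    rw [h3]
    have h7 := log_25_le
    have h8 : (n : ℝ) ≤ m * (D + 1) := by exact_mod_cast hm1
    have h9 : (m : ℝ) * (D + 1) ≤ n + D := by exact_mod_cast hm2
    have h10 : ((n - m : ℕ) : ℝ) = n - m := Nat.cast_sub hmn
    have h11 : (D : ℝ) = 8 * 10 ^ 24 := by rw [hD]; push_cast; norm_num
    have h12 : θ ^ 2 = 1 / 10 ^ 24 := by rw [hθ]; norm_num
    have h13 : (100 : ℝ) ≤ m := by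
      have : (100 : ℕ) ≤ m := by
        have : (100 : ℕ) ≤ D := by rw [hD]; norm_num
        omega
      exact_mod_cast this
    rw [h10, h12]
    rw [h11] at h8 h9
    have hmlog : (m : ℝ) * Real.log 25 ≤ m * 3.4658 :=
      mul_le_mul_of_nonneg_left h7 (by linarith)
    have hgoal : 1 / 10 ^ 25 * (n : ℝ) ≤ 1 / 2 * (m * (- Real.log 25) +
        ((n : ℝ) - m) * (99 / 125 * (1 / 10 ^ 24))) := by
      have e1 : ((n : ℝ) - m) * (99 / 125 * (1 / 10 ^ 24)) ≥
          (m * (8 * 10 ^ 24 + 1) - 8 * 10 ^ 24 - m) * (99 / 125 * (1 / 10 ^ 24)) := by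
        apply mul_le_mul_of_nonneg_right _ (by norm_num)
        linarith
      have e2 : ((m : ℝ) * (8 * 10 ^ 24 + 1) - 8 * 10 ^ 24 - m) * (99 / 125 * (1 / 10 ^ 24)) =
          (m - 1) * (6.336) := by
        norm_num
        ring
      have e3 : 1 / 10 ^ 25 * (n : ℝ) ≤ 1 / 10 ^ 25 * (m * (8 * 10 ^ 24 + 1)) :=
        mul_le_mul_of_nonneg_left h8 (by norm_num)
      have e4 : 1 / 10 ^ 25 * ((m : ℝ) * (8 * 10 ^ 24 + 1)) ≤ m * 0.81 := by
        have : (0 : ℝ) ≤ m := by linarith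
        nlinarith
      linarith
    linarith

end Vale.Agent.P087.H894
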