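import Vale.Agent.P087.H894.Dens

/-! The random matrix model of a sub-tuple with general coefficients. -/

set_option autoImplicit false

open MeasureTheory Filter ProbabilityTheory
open scoped ENNReal NNReal Topology

namespace Vale.Agent.P087.H894

open Vale.Agent.P087

variable {m : ℕ}

/-- the matrices of the tuple -/
noncomputable def XmQ (q : Idx m → ℝ) (k : ℕ) (x : Idx m → Fin k → Fin k → ℝ) (i : Idx m) :
    Matrix (Fin k) (Fin k) ℂ :=
  (q i : ℂ) • (((yw i).map (Sum.inl : Fin m → Letter m)).map fun l => herm k (x (psi l))).prod +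
      (sig m 0 i : ℂ) • herm k (x i)

theorem XmQ_diag (q : Idx m → ℝ) (k : ℕ) (x : Idx m → Fin k → Fin k → ℝ) (i : Idx m)
    (hi : i.1 = i.2) : XmQ q k x i = (q i : ℂ) • herm k (x i) := by
  have hi' : i = (i.1, i.1) := Prod.ext rfl hi.symm
  unfold XmQ sig yw
  rw [if_pos hi, if_pos hi, Real.sqrt_zero, Complex.ofReal_zero, zero_smul, add_zero]
  simp only [List.map_cons, List.map_nil, List.prod_cons, List.prod_nil, mul_one, psi,
    Sum.elim_inl]
  rw [← hi']

theorem XmQ_off (q : Idx m → ℝ) (k : ℕ) (x : Idx m → Fin k → Fin k → ℝ) (i : Idx m)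
    (hi : ¬ i.1 = i.2) : XmQ q k x i =
      (q i : ℂ) • sand k (x (i.1, i.1)) (x (i.2, i.2)) + herm k (x i) := by
  unfold XmQ sig yw sand
  rw [if_neg hi, if_neg hi, add_zero, Real.sqrt_one, Complex.ofReal_one, one_smul]
  simp only [List.map_cons, List.map_nil, List.prod_cons, List.prod_nil, mul_one, psi,
    Sum.elim_inl, Matrix.mul_assoc]

/-- traces of words in the letters followed by a word in the tuple -/
noncomputable def TWQ (q : Idx m → ℝ) (k : ℕ) (x : Idx m → Fin k → Fin k → ℝ)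
    (pre : List (Letter m)) (w : List (Idx m)) : ℂ :=
  (k : ℂ)⁻¹ * ((pre.map fun l => herm k (x (psi l))).prod * (w.map (XmQ q k x)).prod).trace

theorem TWQ_cons (q : Idx m → ℝ) (k : ℕ) (x : Idx m → Fin k → Fin k → ℝ)
    (pre : List (Letter m)) (i : Idx m) (w : List (Idx m)) :
    TWQ q k x pre (i :: w) =
      (q i : ℂ) * TWQ q k x (pre ++ (yw i).map Sum.inl) w +
      (sig m 0 i : ℂ) * TWQ q k x (pre ++ [Sum.inr i]) w := by
  unfold TWQ
  rw [List.map_cons, List.prod_cons]
  conv_lhs => rw [XmQ]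
  simp only [List.map_append, List.prod_append, List.map_cons, List.map_nil, List.prod_cons,
    List.prod_nil, mul_one, psi, Sum.elim_inr, id]
  rw [add_mul, mul_add, Matrix.trace_add, Matrix.smul_mul, Matrix.mul_smul, Matrix.trace_smul,
    Matrix.smul_mul, Matrix.mul_smul, Matrix.trace_smul, smul_eq_mul, smul_eq_mul,
    Matrix.mul_assoc, Matrix.mul_assoc]
  ring

theorem cp_TWQ (q : Idx m → ℝ) : ∀ (w : List (Idx m)) (pre : List (Letter m)),
    (∀ l ∈ pre, OkL l) →
    CP (fun k (x : Idx m → Fin k → Fin k → ℝ) =>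
      TWQ q k x pre w - (expMom q (sig m 0) pre w : ℂ))
  | [], pre, hpre => by
      have h := cp_of_word (pre.map psi)
      rw [semi_map_lm psi pre.length pre le_rfl
        (fun l hl l' hl' h => psi_inj (hpre l hl) (hpre l' hl') h)] at h
      have h2 : (fun k (x : Idx m → Fin k → Fin k → ℝ) =>
          TWQ q k x pre [] - (expMom q (sig m 0) pre [] : ℂ)) =
          (fun k (x : Idx m → Fin k → Fin k → ℝ) =>
          (k : ℂ)⁻¹ * (((pre.map psi).map fun j => herm k (x j)).prod).trace - (semi pre : ℂ)) := by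
        funext k x
        rw [TWQ, expMom, List.map_nil, List.prod_nil, mul_one, List.map_map]
        rfl
      rw [h2]
      exact h
  | i :: w, pre, hpre => by
      have hsplit : (fun k (x : Idx m → Fin k → Fin k → ℝ) =>
          TWQ q k x pre (i :: w) - (expMom q (sig m 0) pre (i :: w) : ℂ)) =
          (fun k (x : Idx m → Fin k → Fin k → ℝ) =>
          (q i : ℂ) * (TWQ q k x (pre ++ (yw i).map Sum.inl) w -
            (expMom q (sig m 0) (pre ++ (yw i).map Sum.inl) w : ℂ)) +
          (sig m 0 i : ℂ) * (TWQ q k x (pre ++ [Sum.inr i]) w -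
            (expMom q (sig m 0) (pre ++ [Sum.inr i]) w : ℂ))) := by
        funext k x
        rw [TWQ_cons, expMom]
        push_cast
        ring
      rw [hsplit]
      have h1 := cp_TWQ q w (pre ++ (yw i).map Sum.inl) (by
        intro l hl
        rw [List.mem_append] at hl
        rcases hl with hl | hl
        · exact hpre l hl
        · rw [List.mem_map] at hl
          obtain ⟨a, _, rfl⟩ := hl
          exact trivial)
      refine (h1.const_mul _).add ?_
      by_cases hi : i.1 = i.2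
      · have hs : (sig m 0 i : ℂ) = 0 := by
          rw [sig, if_pos hi, Real.sqrt_zero, Complex.ofReal_zero]
        rw [hs]
        intro δ hδ
        have : ∀ k : ℕ, {x : Idx m → Fin k → Fin k → ℝ | δ ≤ ‖(0 : ℂ) * (TWQ q k x
            (pre ++ [Sum.inr i]) w -
            (expMom q (sig m 0) (pre ++ [Sum.inr i]) w : ℂ))‖} = ∅ := by
          intro k
          ext x
          simp only [zero_mul, norm_zero, Set.mem_ofPred_eq, Set.mem_empty_iff_false, iff_false,
            not_le]
          exact hδ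
        simp only [this, measure_empty]
        exact tendsto_const_nhds
      · have h2 := cp_TWQ q w (pre ++ [Sum.inr i]) (by
          intro l hl
          rw [List.mem_append] at hl
          rcases hl with hl | hl
          · exact hpre l hl
          · rw [List.mem_singleton] at hl
            subst hl
            exact hi)
        exact h2.const_mul _

theorem cp_momentQ (q : Idx m → ℝ) (w : List (Idx m)) :
    CP (fun k (x : Idx m → Fin k → Fin k → ℝ) =>
      (k : ℂ)⁻¹ * ((w.map (XmQ q k x)).prod).trace - lawQ q 0 w) := by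
  have h := cp_TWQ q w [] (fun l hl => absurd hl List.not_mem_nil)
  simp only [TWQ, List.map_nil, List.prod_nil, one_mul] at h
  exact h

theorem norm_XmQ_le (q : Idx m → ℝ) (R0 : ℝ) (hq : ∀ i, |q i| ≤ 1) (hR0 : 0 ≤ R0) (k : ℕ)
    (x : Idx m → Fin k → Fin k → ℝ) (i : Idx m)
    (h1 : ‖Matrix.toEuclideanCLM (n := Fin k) (𝕜 := ℂ) (herm k (x (i.1, i.1)))‖ ≤ R0)
    (h2 : ‖Matrix.toEuclideanCLM (n := Fin k) (𝕜 := ℂ) (herm k (x (i.2, i.2)))‖ ≤ R0)
    (h3 : ‖Matrix.toEuclideanCLM (n := Fin k) (𝕜 := ℂ) (herm k (x i))‖ ≤ R0) :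
    ‖Matrix.toEuclideanCLM (n := Fin k) (𝕜 := ℂ) (XmQ q k x i)‖ ≤ R0 ^ 3 + R0 := by
  by_cases h : i.1 = i.2
  · rw [XmQ_diag q k x i h, map_smul]
    calc _ ≤ ‖(q i : ℂ)‖ * ‖Matrix.toEuclideanCLM (n := Fin k) (𝕜 := ℂ) (herm k (x i))‖ :=
          norm_smul_le _ _
      _ ≤ 1 * R0 := by
          rw [Complex.norm_real, Real.norm_eq_abs]
          gcongr
          exact hq i
      _ ≤ _ := by
          have : 0 ≤ R0 ^ 3 := by positivity
          linarith
  · rw [XmQ_off q k x i h, map_add, map_smul, sand, map_mul, map_mul]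
    set A := Matrix.toEuclideanCLM (n := Fin k) (𝕜 := ℂ) (herm k (x (i.1, i.1))) with hA
    set B := Matrix.toEuclideanCLM (n := Fin k) (𝕜 := ℂ) (herm k (x (i.2, i.2))) with hB
    set C := Matrix.toEuclideanCLM (n := Fin k) (𝕜 := ℂ) (herm k (x i)) with hC
    calc ‖(q i : ℂ) • (A * B * A) + C‖ ≤ ‖(q i : ℂ) • (A * B * A)‖ + ‖C‖ := norm_add_le _ _
      _ ≤ ‖(q i : ℂ)‖ * ‖A * B * A‖ + ‖C‖ := by
          gcongr
          exact norm_smul_le (q i : ℂ) (A * B * A)
      _ ≤ 1 * (R0 ^ 3) + R0 := by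
          rw [Complex.norm_real, Real.norm_eq_abs]
          have h4 : ‖A * B * A‖ ≤ R0 ^ 3 := by
            calc ‖A * B * A‖ ≤ ‖A * B‖ * ‖A‖ := norm_mul_le _ _
              _ ≤ (‖A‖ * ‖B‖) * ‖A‖ := by gcongr; exact norm_mul_le _ _
              _ ≤ (R0 * R0) * R0 := by gcongr
              _ = R0 ^ 3 := by ring
          gcongr
          exact hq i
      _ = _ := by ring

/-- the shear -/
noncomputable def shrQ (q : Idx m → ℝ) (c : ℝ) (k : ℕ) (y : Idx m → Fin k → Fin k → ℝ)
    (i : Idx m) : Fin k → Fin k → ℝ :=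
  if i.1 = i.2 then 0 else (q i / c ^ 3) • hermInv k (sand k (y (i.1, i.1)) (y (i.2, i.2)))

theorem herm_psiQ (q : Idx m → ℝ) (c : ℝ) (hc : c ≠ 0) (hq : ∀ a, q (a, a) = c) (k : ℕ)
    (x y : Idx m → Fin k → Fin k → ℝ) (i : Idx m)
    (hy : ∀ a, y (a, a) = c • x (a, a)) :
    herm k (scl c i • x i + shrQ q c k y i) = XmQ q k x i := by
  unfold scl shrQ
  by_cases h : i.1 = i.2
  · rw [if_pos h, if_pos h, add_zero, herm_smul_lh, XmQ_diag q k x i h]
    have hi' : i = (i.1, i.1) := Prod.ext rfl h.symm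
    rw [hi', hq]
  · rw [if_neg h, if_neg h, one_smul, herm_add_lh, herm_smul_lh,
      herm_hermInv _ _ (sand_isHermitian _ _ _), XmQ_off q k x i h, hy, hy]
    have h1 : sand k (c • x (i.1, i.1)) (c • x (i.2, i.2)) =
        ((c : ℂ) ^ 3) • sand k (x (i.1, i.1)) (x (i.2, i.2)) := by
      unfold sand
      rw [herm_smul_lh, herm_smul_lh]
      simp only [Matrix.smul_mul, Matrix.mul_smul, smul_smul]
      congr 1
      ring
    rw [h1, smul_smul, add_comm]
    congr 2
    have hc' : (c : ℂ) ≠ 0 := Complex.ofReal_ne_zero.2 hc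
    push_cast
    field_simp

section Sub

variable (P : Idx m → Prop) [DecidablePred P]

/-- extension by zero -/
def ext (k : ℕ) (x : {i // P i} → Fin k → Fin k → ℝ) (i : Idx m) : Fin k → Fin k → ℝ :=
  if h : P i then x ⟨i, h⟩ else 0

theorem ext_apply (k : ℕ) (x : {i // P i} → Fin k → Fin k → ℝ) (i : {i // P i}) :
    ext P k x i = x i := by
  unfold ext
  rw [dif_pos i.2]

theorem measurable_ext (k : ℕ) : Measurable (ext P k) := by
  refine measurable_pi_lambda _ fun i => ?_
  unfold ext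
  by_cases h : P i
  · simp only [dif_pos h]
    exact measurable_pi_apply _
  · simp only [dif_neg h]
    exact measurable_const

/-- the shear on the sub-tuple -/
noncomputable def shrP (q : Idx m → ℝ) (c : ℝ) (k : ℕ) (y : {i // P i} → Fin k → Fin k → ℝ)
    (i : {i // P i}) : Fin k → Fin k → ℝ :=
  shrQ q c k (ext P k y) i

theorem measurable_shrQ (q : Idx m → ℝ) (c : ℝ) (k : ℕ) :
    Measurable (shrQ (m := m) q c k) := by
  refine measurable_pi_lambda _ (fun i => ?_)
  unfold shrQ
  split_ifs with h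
  · exact measurable_const
  · have key : Measurable fun y : Idx m → Fin k → Fin k → ℝ =>
        hermInv k (sand k (y (i.1, i.1)) (y (i.2, i.2))) := ?_
    · exact key.const_smul (q i / c ^ 3)
    refine measurable_hermInv k _ (fun a b => ?_)
    unfold sand
    refine measurable_mul_entries k _ _ (fun a b => measurable_mul_entries k _ _ ?_ ?_ a b) ?_ a b
    · exact fun a b => measurable_herm k _ (measurable_pi_apply _) a b
    · exact fun a b => measurable_herm k _ (measurable_pi_apply _) a b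
    · exact fun a b => measurable_herm k _ (measurable_pi_apply _) a b

theorem measurable_shrP (q : Idx m → ℝ) (c : ℝ) (k : ℕ) : Measurable (shrP P q c k) := by
  refine measurable_pi_lambda _ fun i => ?_
  exact (measurable_pi_apply (i : Idx m)).comp ((measurable_shrQ q c k).comp
    (measurable_ext P k))

theorem shrP_diag (q : Idx m → ℝ) (c : ℝ) (k : ℕ) (x : {i // P i} → Fin k → Fin k → ℝ)
    (i : {i // P i}) (hi : (i : Idx m).1 = (i : Idx m).2) : shrP P q c k x i = 0 := by
  unfold shrP shrQ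
  rw [if_pos hi]

theorem shrP_dep (q : Idx m → ℝ) (c : ℝ) (k : ℕ) (x y : {i // P i} → Fin k → Fin k → ℝ)
    (h : ∀ i : {i // P i}, (i : Idx m).1 = (i : Idx m).2 → x i = y i) :
    shrP P q c k x = shrP P q c k y := by
  have h1 : ∀ a : Fin m, ext P k x (a, a) = ext P k y (a, a) := by
    intro a
    unfold ext
    by_cases ha : P (a, a)
    · rw [dif_pos ha, dif_pos ha, h ⟨(a, a), ha⟩ rfl]
    · rw [dif_neg ha, dif_neg ha]
  funext i
  unfold shrP shrQ
  rw [h1, h1]

/-- the measure on the sub-tuple is the image of the measure on the full tuple -/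
theorem measurePreserving_sub (k : ℕ) :
    MeasurePreserving (fun (x : Idx m → Fin k → Fin k → ℝ) (i : {i // P i}) => x i)
      (gue (Idx m) k) (gue {i // P i} k) := by
  have h1 := measurePreserving_piEquivPiSubtypeProd
    (fun _ : Idx m => Measure.pi fun _ : Fin k => Measure.pi fun _ : Fin k =>
      gaussianReal 0 ((k : ℝ≥0)⁻¹)) P
  exact measurePreserving_fst.comp h1

theorem XmQ_ext (hP : ∀ a, P (a, a)) (q : Idx m → ℝ) (k : ℕ)
    (x : Idx m → Fin k → Fin k → ℝ) (i : {i // P i}) :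
    XmQ q k (ext P k fun j => x j) i = XmQ q k x i := by
  have h1 : ∀ a : Fin m, ext P k (fun j : {i // P i} => x j) (a, a) = x (a, a) := by
    intro a
    unfold ext
    rw [dif_pos (hP a)]
  have h2 : ext P k (fun j : {i // P i} => x j) i = x i := ext_apply P k _ i
  by_cases h : (i : Idx m).1 = (i : Idx m).2
  · rw [XmQ_diag _ _ _ _ h, XmQ_diag _ _ _ _ h, h2]
  · rw [XmQ_off _ _ _ _ h, XmQ_off _ _ _ _ h, h2, h1, h1]

/-- the typical matrices of the sub-tuple -/
def typ (q : Idx m → ℝ) (R0 : ℝ) (M : ℕ) (ε η : ℝ) (k : ℕ) :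
    Set ({i // P i} → Fin k → Fin k → ℝ) :=
  {x | (∀ j, ‖Matrix.toEuclideanCLM (n := Fin k) (𝕜 := ℂ) (herm k (x j))‖ ≤ R0) ∧
    (∀ j, k * (1 - η) ≤ ∑ a, ∑ b, x j a b ^ 2) ∧
    ∀ w : List {i // P i}, 1 ≤ w.length → w.length ≤ M →
      ‖(k : ℂ)⁻¹ * ((w.map fun j : {i // P i} => XmQ q k (ext P k x) j).prod).trace -
        lawQ q 0 (w.map Subtype.val)‖ < ε}

theorem semi_pair {J : Type} [DecidableEq J] (j : J) : semi [j, j] = 1 := by
  simp [semi_cons_range, semi_nil_cu]

theorem typ_half (hP : ∀ a, P (a, a)) (q : Idx m → ℝ) (R0 : ℝ)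
    (hnorm : Tendsto (fun k : ℕ =>
      (Measure.pi fun _ : Fin k => Measure.pi fun _ : Fin k => gaussianReal 0 ((k : ℝ≥0)⁻¹))
        {x : Fin k → Fin k → ℝ | R0 < ‖Matrix.toEuclideanCLM (n := Fin k) (𝕜 := ℂ) (herm k x)‖})
      atTop (𝓝 0)) (M : ℕ) (ε η : ℝ) (hε : 0 < ε) (hη : 0 < η) :
    ∀ᶠ k : ℕ in atTop, (1 / 2 : ℝ≥0∞) ≤ gue {i // P i} k (typ P q R0 M ε η k) := by
  have hfin : {w : List {i // P i} | w.length ≤ M}.Finite := List.finite_length_le _ _
  set W := hfin.toFinset with hW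
  have hN : ∀ j : Idx m, Tendsto (fun k : ℕ => gue (Idx m) k {x |
      R0 < ‖Matrix.toEuclideanCLM (n := Fin k) (𝕜 := ℂ) (herm k (x j))‖}) atTop (𝓝 0) := by
    intro j
    refine tendsto_of_tendsto_of_tendsto_of_le_of_le tendsto_const_nhds hnorm
      (fun _ => zero_le) (fun k => ?_)
    have h1 := measurePreserving_gue_eval (J := Idx m) k j
    exact h1.measure_preimage_le {x : Fin k → Fin k → ℝ |
      R0 < ‖Matrix.toEuclideanCLM (n := Fin k) (𝕜 := ℂ) (herm k x)‖}
  have hS : ∀ j : Idx m, Tendsto (fun k : ℕ => gue (Idx m) k {x |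
      η ≤ ‖(k : ℂ)⁻¹ * (([j, j].map fun j => herm k (x j)).prod).trace
        - (semi [j, j] : ℂ)‖}) atTop (𝓝 0) := fun j => cp_of_word [j, j] η hη
  have hsum : Tendsto (fun k : ℕ => (∑ j : Idx m, gue (Idx m) k {x |
      R0 < ‖Matrix.toEuclideanCLM (n := Fin k) (𝕜 := ℂ) (herm k (x j))‖}) +
      (∑ j : Idx m, gue (Idx m) k {x |
        η ≤ ‖(k : ℂ)⁻¹ * (([j, j].map fun j => herm k (x j)).prod).trace
          - (semi [j, j] : ℂ)‖}) +
      ∑ w ∈ W, gue (Idx m) k {x |
        ε ≤ ‖(k : ℂ)⁻¹ * (((w.map Subtype.val).map (XmQ q k x)).prod).trace -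
          lawQ q 0 (w.map Subtype.val)‖})
      atTop (𝓝 0) := by
    have h1 := tendsto_finsetSum Finset.univ (fun j (_ : j ∈ Finset.univ) => hN j)
    have h2 := tendsto_finsetSum Finset.univ (fun j (_ : j ∈ Finset.univ) => hS j)
    have h3 := tendsto_finsetSum W (fun w (_ : w ∈ W) =>
      cp_momentQ q (w.map Subtype.val) ε hε)
    have h4 := (h1.add h2).add h3
    simpa using h4
  have hev := hsum.eventually (gt_mem_nhds (show (0 : ℝ≥0∞) < 1 / 2 by simp))
  filter_upwards [hev, eventually_gt_atTop 0] with k hk hk0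
  have hkpos : (0 : ℝ) < k := by exact_mod_cast hk0
  refine le_trans ?_ ((measurePreserving_sub P k).measure_preimage_le _)
  set G : Set (Idx m → Fin k → Fin k → ℝ) :=
    (fun (x : Idx m → Fin k → Fin k → ℝ) (i : {i // P i}) => x i) ⁻¹' typ P q R0 M ε η k with hG
  have hcompl : gue (Idx m) k Gᶜ ≤ 1 / 2 := by
    refine le_trans ?_ hk.le
    have hsub : Gᶜ ⊆ ((⋃ j : Idx m, {x : Idx m → Fin k → Fin k → ℝ |
        R0 < ‖Matrix.toEuclideanCLM (n := Fin k) (𝕜 := ℂ) (herm k (x j))‖}) ∪
        (⋃ j : Idx m, {x : Idx m → Fin k → Fin k → ℝ |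
          η ≤ ‖(k : ℂ)⁻¹ * (([j, j].map fun j => herm k (x j)).prod).trace
          - (semi [j, j] : ℂ)‖})) ∪
        (⋃ w ∈ W, {x : Idx m → Fin k → Fin k → ℝ |
          ε ≤ ‖(k : ℂ)⁻¹ * (((w.map Subtype.val).map (XmQ q k x)).prod).trace -
            lawQ q 0 (w.map Subtype.val)‖}) := by
      intro x hx
      by_contra hcon
      apply hx
      simp only [Set.mem_union, Set.mem_iUnion, Set.mem_ofPred_eq, not_or, not_exists, not_lt,
        not_le] at hcon
      refine ⟨fun j => hcon.1.1 j, fun j => ?_, fun w _ hw => ?_⟩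
      · have h1 := hcon.1.2 j
        simp only [List.map_cons, List.map_nil, List.prod_cons, List.prod_nil, mul_one] at h1
        rw [semi_pair, trace_herm_sq] at h1
        have h' : |(k : ℝ)⁻¹ * (∑ a, ∑ b, x j a b ^ 2) - 1| < η := by
          rw [← Real.norm_eq_abs, ← Complex.norm_real]
          push_cast
          push_cast at h1
          exact h1
        have h2 := (abs_lt.mp h').1
        have h3 : 1 - η ≤ (k : ℝ)⁻¹ * (∑ a, ∑ b, x j a b ^ 2) := by linarith
        calc (k : ℝ) * (1 - η) ≤ k * ((k : ℝ)⁻¹ * (∑ a, ∑ b, x j a b ^ 2)) := by gcongr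
          _ = ∑ a, ∑ b, x j a b ^ 2 := by field_simp
      · have h1 := hcon.2 w (by
          rw [hW, Set.Finite.mem_toFinset]
          exact hw)
        rw [List.map_map] at h1
        have h2 : (w.map fun j : {i // P i} => XmQ q k (ext P k fun i => x i) j) =
            w.map (XmQ q k x ∘ Subtype.val) := by
          apply List.map_congr_left
          intro j _
          exact XmQ_ext P hP q k x j
        rw [h2]
        exact h1
    refine (measure_mono hsub).trans ((measure_union_le _ _).trans ?_)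
    refine add_le_add ((measure_union_le _ _).trans ?_) (measure_biUnion_finset_le _ _)
    exact add_le_add (measure_iUnion_fintype_le _ _) (measure_iUnion_fintype_le _ _)
  have hone : (1 : ℝ≥0∞) ≤ gue (Idx m) k G + gue (Idx m) k Gᶜ := by
    have h1 : gue (Idx m) k Set.univ = 1 := measure_univ
    rw [← h1, ← Set.union_compl_self G]
    exact measure_union_le _ _
  by_contra hlt
  rw [not_le] at hlt
  have : gue (Idx m) k G + gue (Idx m) k Gᶜ < 1 / 2 + 1 / 2 :=
    ENNReal.add_lt_add_of_lt_of_le (by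
      refine ne_top_of_le_ne_top ?_ hcompl
      simp) hlt hcompl
  rw [ENNReal.add_halves] at this
  exact absurd hone (not_le.2 this)

end Sub

end Vale.Agent.P087.H894
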