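import Vale.Agent.P087.H894.Upper

/-! Realisation of the sub-tuple in a tracial von Neumann algebra. -/

set_option autoImplicit false

open scoped InnerProductSpace

namespace Vale.Agent.P087.H894

open Vale.Agent.P087 Vale.Agent.P087.VN

variable {m : ℕ}

/-- the tuple `X` -/
noncomputable def tupQ (q : Idx m → ℝ) (i : Idx m) : (vna (Big m)).toStarSubalgebra :=
  (q i : ℂ) • ((yw i).map (fun a => gen (Sum.inl a : Big m))).prod +
    (sig0 i : ℂ) • gen (Sum.inr (Sum.inl i) : Big m)

theorem tupQ_selfAdjoint (q : Idx m → ℝ) (i : Idx m) : IsSelfAdjoint (tupQ q i) := by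
  rw [IsSelfAdjoint, tupQ, star_add, star_smul, star_smul, star_gen]
  have e : star ((yw i).map (fun a => gen (Sum.inl a : Big m))).prod =
      ((yw i).map (fun a => gen (Sum.inl a : Big m))).prod := by
    by_cases h : i.1 = i.2
    · simp [yw, h, star_gen]
    · simp [yw, h, star_gen, mul_assoc]
  rw [e]
  simp

/-- the tuple at time `t` as operators -/
noncomputable def xOpQ (q : Idx m → ℝ) (t : ℝ) (i : Idx m) : Fock (Big m) →L[ℂ] Fock (Big m) :=
  (q i : ℂ) • (((yw i).map Sum.inl).map (gOp m t)).prod + gOp m t (Sum.inr i)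

theorem xOpQ_moment (q : Idx m → ℝ) {t : ℝ} (ht : 0 ≤ t) :
    ∀ (w : List (Idx m)) (pre : List (Letter m)),
      ⟪bas ([] : List (Big m)),
        ((pre.map (gOp m t)).prod * (w.map (xOpQ q t)).prod) (bas [])⟫_ℂ =
      (((pre.map (sOp m t)).prod * expMom q (sig m t) pre w : ℝ) : ℂ) := by
  intro w
  induction w with
  | nil =>
    intro pre
    rw [List.map_nil, List.prod_nil, mul_one,
      moment_word (gOp m t) (rOp m t) (sOp m t) (rOp_gOp m ht) (rOp_vac m t) (gOp_adj m t) _ pre rfl]
    rw [expMom]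
  | cons i w ih =>
    intro pre
    have h1 := ih (pre ++ (yw i).map Sum.inl)
    have h2 := ih (pre ++ [Sum.inr i])
    rw [List.map_append, List.prod_append] at h1 h2
    rw [List.map_cons, List.prod_cons]
    have e : (pre.map (gOp m t)).prod * (xOpQ q t i * (w.map (xOpQ q t)).prod) =
        (q i : ℂ) • ((pre.map (gOp m t)).prod * (((yw i).map Sum.inl).map (gOp m t)).prod *
          (w.map (xOpQ q t)).prod) +
        (pre.map (gOp m t)).prod * (([Sum.inr i] : List (Letter m)).map (gOp m t)).prod *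
          (w.map (xOpQ q t)).prod := by
      rw [xOpQ, add_mul, mul_add, smul_mul_assoc, mul_smul_comm]
      simp only [List.map_cons, List.map_nil, List.prod_cons, List.prod_nil, mul_one, mul_assoc]
    rw [e]
    show ⟪bas ([] : List (Big m)),
      (q i : ℂ) • ((pre.map (gOp m t)).prod * (((yw i).map Sum.inl).map (gOp m t)).prod *
          (w.map (xOpQ q t)).prod) (bas []) +
        ((pre.map (gOp m t)).prod * (([Sum.inr i] : List (Letter m)).map (gOp m t)).prod *
          (w.map (xOpQ q t)).prod) (bas [])⟫_ℂ = _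
    rw [inner_add_right, inner_smul_right, h1, h2, expMom, List.map_append, List.prod_append,
      List.map_append, List.prod_append]
    have e2 : (((yw i).map (Sum.inl : Fin m → Letter m)).map (sOp m t)).prod = 1 := by
      rw [List.map_map]
      apply List.prod_eq_one
      intro x hx
      rw [List.mem_map] at hx
      obtain ⟨a, _, rfl⟩ := hx
      rfl
    have e3 : (([Sum.inr i] : List (Letter m)).map (sOp m t)).prod = sig m t i := by
      simp [sOp]
    rw [e2, e3]
    push_cast
    ring

theorem coe_prod_gen (i : Idx m) :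
    (((yw i).map (fun a => gen (Sum.inl a : Big m))).prod :
        (vna (Big m)).toStarSubalgebra).1 =
        ((yw i).map (fun a => semL (Sum.inl a : Big m))).prod := by
  have := map_list_prod ((vna (Big m)).toStarSubalgebra.subtype)
    ((yw i).map (fun a => gen (Sum.inl a : Big m)))
  rw [List.map_map] at this
  exact this

theorem law_tupQ (q : Idx m → ℝ) {t : ℝ} (ht : 0 ≤ t) (w : List (Idx m)) :
    law (vac (Big m)) (fun i => tupQ q i + ((Real.sqrt t : ℝ) : ℂ) • tupS m i) w =
      lawQ q t w := by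
  have h := xOpQ_moment q ht w []
  rw [law, vac_apply, lawQ]
  have e1 : ∀ i : Idx m, ((tupQ q i + ((Real.sqrt t : ℝ) : ℂ) • tupS m i :
      (vna (Big m)).toStarSubalgebra) : Fock (Big m) →L[ℂ] Fock (Big m)) = xOpQ q t i := by
    intro i
    have e2 : (((yw i).map (fun a => gen (Sum.inl a : Big m))).prod :
        (vna (Big m)).toStarSubalgebra).1 = (((yw i).map Sum.inl).map (gOp m t)).prod := by
      rw [coe_prod_gen, List.map_map]
      rfl
    show (q i : ℂ) • (((yw i).map (fun a => gen (Sum.inl a : Big m))).prod :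
        (vna (Big m)).toStarSubalgebra).1 + (sig0 i : ℂ) • semL (Sum.inr (Sum.inl i) : Big m) +
        ((Real.sqrt t : ℝ) : ℂ) • semL (Sum.inr (Sum.inr i) : Big m) = _
    rw [e2, xOpQ, add_assoc]
    rfl
  have e3 : (((w.map (fun i => tupQ q i + ((Real.sqrt t : ℝ) : ℂ) • tupS m i)).prod :
      (vna (Big m)).toStarSubalgebra) : Fock (Big m) →L[ℂ] Fock (Big m)) =
      (w.map (xOpQ q t)).prod := by
    have := map_list_prod ((vna (Big m)).toStarSubalgebra.subtype)
      (w.map (fun i => tupQ q i + ((Real.sqrt t : ℝ) : ℂ) • tupS m i))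
    rw [List.map_map] at this
    refine this.trans ?_
    congr 1
    apply List.map_congr_left
    intro i _
    exact e1 i
  rw [e3]
  simpa using h

theorem law_tupQ0 (q : Idx m → ℝ) (w : List (Idx m)) :
    law (vac (Big m)) (tupQ q) w = lawQ q 0 w := by
  have h := law_tupQ q (le_refl (0 : ℝ)) w
  have e : (fun i => tupQ q i + ((Real.sqrt 0 : ℝ) : ℂ) • tupS m i) = tupQ q := by
    funext i
    simp
  rw [e] at h
  exact h

/-- the underlying semicirculars -/
noncomputable def tupG (i : Idx m) : (vna (Big m)).toStarSubalgebra :=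
  if i.1 = i.2 then gen (Sum.inl i.1 : Big m) else gen (Sum.inr (Sum.inl i) : Big m)

/-- the letter of `tupG i` -/
def ltr (i : Idx m) : Big m := if i.1 = i.2 then Sum.inl i.1 else Sum.inr (Sum.inl i)

theorem tupG_eq (i : Idx m) : tupG i = gen (ltr i) := by
  unfold tupG ltr
  split_ifs <;> rfl

theorem ltr_injective : Function.Injective (ltr : Idx m → Big m) := by
  intro i j h
  unfold ltr at h
  split_ifs at h with h1 h2 h2
  · have h3 : i.1 = j.1 := Sum.inl_injective h
    exact Prod.ext h3 (by rw [← h1, ← h2, h3])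
  · exact Sum.inl_injective (Sum.inr_injective h)

theorem tupQ_diag (q : Idx m → ℝ) (a : Fin m) : tupQ q (a, a) = (q (a, a) : ℂ) • tupG (a, a) := by
  simp [tupQ, tupG, yw, sig0]

theorem tupQ_off (q : Idx m → ℝ) (a b : Fin m) (hab : a ≠ b) : tupQ q (a, b) =
    (q (a, b) : ℂ) • (tupG (a, a) * tupG (b, b) * tupG (a, a)) + tupG (a, b) := by
  simp [tupQ, tupG, yw, sig0, hab, mul_assoc]

section Sub

variable {κ : Type} (f : κ → Idx m)

theorem adjoin_eq (d : Fin m → κ) (hd : ∀ a, f (d a) = (a, a)) (q : Idx m → ℝ) (c : ℝ)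
    (hc : c ≠ 0) (hq : ∀ a, q (a, a) = c) :
    Algebra.adjoin ℂ (Set.range fun j => tupQ q (f j)) =
      Algebra.adjoin ℂ (Set.range fun j => tupG (f j)) := by
  have hc' : (c : ℂ) ≠ 0 := Complex.ofReal_ne_zero.2 hc
  apply le_antisymm
  · refine Algebra.adjoin_le ?_
    rintro _ ⟨j, rfl⟩
    have hG : ∀ a, tupG (a, a) ∈ Algebra.adjoin ℂ (Set.range fun j => tupG (f j)) := by
      intro a
      refine Algebra.subset_adjoin ⟨d a, ?_⟩
      show tupG (f (d a)) = _
      rw [hd]
    have hj : tupG (f j) ∈ Algebra.adjoin ℂ (Set.range fun j => tupG (f j)) :=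
      Algebra.subset_adjoin ⟨j, rfl⟩
    show tupQ q (f j) ∈ Algebra.adjoin ℂ (Set.range fun j => tupG (f j))
    rcases hfj : f j with ⟨a, b⟩
    rw [hfj] at hj
    by_cases hab : a = b
    · subst hab
      rw [tupQ_diag]
      exact Subalgebra.smul_mem _ hj _
    · rw [tupQ_off q a b hab]
      exact Subalgebra.add_mem _ (Subalgebra.smul_mem _ (Subalgebra.mul_mem _
        (Subalgebra.mul_mem _ (hG a) (hG b)) (hG a)) _) hj
  · refine Algebra.adjoin_le ?_
    rintro _ ⟨j, rfl⟩
    have hX : ∀ j, tupQ q (f j) ∈ Algebra.adjoin ℂ (Set.range fun j => tupQ q (f j)) :=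
      fun j => Algebra.subset_adjoin ⟨j, rfl⟩
    have hG : ∀ a, tupG (a, a) ∈ Algebra.adjoin ℂ (Set.range fun j => tupQ q (f j)) := by
      intro a
      have h1 := hX (d a)
      rw [hd, tupQ_diag, hq] at h1
      have h2 := Subalgebra.smul_mem _ h1 (c : ℂ)⁻¹
      rw [smul_smul, inv_mul_cancel₀ hc', one_smul] at h2
      exact h2
    show tupG (f j) ∈ Algebra.adjoin ℂ (Set.range fun j => tupQ q (f j))
    have hj := hX j
    rcases hfj : f j with ⟨a, b⟩
    rw [hfj] at hj
    by_cases hab : a = b
    · subst hab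
      exact hG a
    · rw [tupQ_off q a b hab] at hj
      have h3 : (q (a, b) : ℂ) • (tupG (a, a) * tupG (b, b) * tupG (a, a)) ∈
          Algebra.adjoin ℂ (Set.range fun j => tupQ q (f j)) :=
        Subalgebra.smul_mem _ (Subalgebra.mul_mem _ (Subalgebra.mul_mem _ (hG a) (hG b)) (hG a)) _
      have h4 := Subalgebra.sub_mem _ hj h3
      rw [add_sub_cancel_left] at h4
      exact h4

theorem tupG_even (i : Idx m) (k : ℕ) : vac (Big m) (tupG i ^ (2 * k)) = (catalan k : ℂ) := by
  rw [tupG_eq, vac_gen_pow, if_pos ⟨k, by ring⟩, Nat.mul_div_cancel_left k (by norm_num)]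
  simp

theorem tupG_odd (i : Idx m) (k : ℕ) : vac (Big m) (tupG i ^ (2 * k + 1)) = 0 := by
  have : ¬ Even (2 * k + 1) := by
    rw [Nat.not_even_iff_odd]
    exact ⟨k, rfl⟩
  rw [tupG_eq, vac_gen_pow, if_neg this]
  simp

theorem free_tupG (hf : Function.Injective f) :
    FreeFamily (vac (Big m)) (fun j : κ => Algebra.adjoin ℂ {tupG (f j)}) := by
  apply freeFamily_of_loc (fun j : κ => ({ltr (f j)} : Set (Big m)))
  · intro p q hpq
    rw [Set.disjoint_singleton]
    exact fun h => hpq (hf (ltr_injective h))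
  · intro j
    apply adjoin_loc
    intro T hT
    rw [Set.mem_singleton_iff] at hT
    rw [hT, tupG_eq]
    exact semL_locAlg rfl

/-- letters of the algebra of `X` and of the algebra of each `S j` -/
def grpK : Option κ → Set (Big m)
  | none => {x | ∀ j, x ≠ Sum.inr (Sum.inr j)}
  | some j => {Sum.inr (Sum.inr (f j))}

theorem grpK_disjoint (hf : Function.Injective f) (p q : Option κ) (h : p ≠ q) :
    Disjoint (grpK f p) (grpK f q) := by
  rw [Set.disjoint_left]
  intro x hx hy
  rcases p with _ | j <;> rcases q with _ | k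
  · exact h rfl
  · exact hx (f k) hy
  · exact hy (f j) hx
  · have h1 : x = Sum.inr (Sum.inr (f j)) := hx
    have h2 : x = Sum.inr (Sum.inr (f k)) := hy
    rw [h1] at h2
    have : f j = f k := by simpa using h2
    exact h (by rw [hf this])

theorem free_tupQ (hf : Function.Injective f) (q : Idx m → ℝ) :
    FreeFamily (vac (Big m)) (fun o : Option κ =>
    o.elim (Algebra.adjoin ℂ (Set.range fun j => tupQ q (f j)))
      (fun j => Algebra.adjoin ℂ {tupS m (f j)})) := by
  apply freeFamily_of_loc (grpK f) (grpK_disjoint f hf)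
  intro o
  rcases o with _ | j
  · apply adjoin_loc
    rintro _ ⟨i, rfl⟩
    have hA : ∀ a : Fin m, semL (Sum.inl a : Big m) ∈ locAlg (grpK f (none : Option κ)) :=
      fun a => semL_locAlg (by intro j; simp)
    have hS : semL (Sum.inr (Sum.inl (f i)) : Big m) ∈ locAlg (grpK f (none : Option κ)) :=
      semL_locAlg (by intro j; simp)
    show (q (f i) : ℂ) • (((yw (f i)).map (fun a => gen (Sum.inl a : Big m))).prod :
        (vna (Big m)).toStarSubalgebra).1 +
        (sig0 (f i) : ℂ) • semL (Sum.inr (Sum.inl (f i)) : Big m) ∈ _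
    rw [coe_prod_gen]
    apply Subalgebra.add_mem
    · apply Subalgebra.smul_mem
      apply Subalgebra.list_prod_mem
      intro x hx
      rw [List.mem_map] at hx
      obtain ⟨a, _, rfl⟩ := hx
      exact hA a
    · exact Subalgebra.smul_mem _ hS _
  · apply adjoin_loc
    intro T hT
    rw [Set.mem_singleton_iff] at hT
    rw [hT]
    exact semL_locAlg rfl

theorem isFreeSemicircularFrom (hf : Function.Injective f) (q : Idx m → ℝ) :
    IsFreeSemicircularFrom (vac (Big m)) (fun j => tupQ q (f j)) (fun j => tupS m (f j)) := by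
  refine ⟨fun j => star_gen _, ?_, ?_, free_tupQ f hf q⟩
  · intro j k
    show vac (Big m) (gen _ ^ (2 * k)) = _
    rw [vac_gen_pow, if_pos ⟨k, by ring⟩, Nat.mul_div_cancel_left k (by norm_num)]
    simp
  · intro j k
    show vac (Big m) (gen _ ^ (2 * k + 1)) = _
    have : ¬ Even (2 * k + 1) := by
      rw [Nat.not_even_iff_odd]
      exact ⟨k, rfl⟩
    rw [vac_gen_pow, if_neg this]
    simp

end Sub

end Vale.Agent.P087.H894
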