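import Vale.Agent.P087.H894.Graph
import Vale.Agent.P087.H894.Gibbs2

/-! The non-microstates entropy of a scaled free semicircular family. -/

set_option autoImplicit false
set_option linter.unusedSectionVars false

open MeasureTheory Filter
open scoped ENNReal NNReal Topology

namespace Vale.Agent.P087.H894

open Vale.Agent.P087

variable {m : ℕ}

theorem chiStar_eq {ι : Type} [Fintype ι] [DecidableEq ι] (ν : ℝ → List ι → ℂ) (U : ℝ → ℝ)
    (hU0 : ∀ t, 0 < t → 0 ≤ U t) (hU : ∀ t, 0 < t → fisher (ν t) = ENNReal.ofReal (U t))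
    (hint : IntegrableOn (fun t => (Fintype.card ι : ℝ) / (1 + t) - U t) (Set.Ioi 0)) :
    chiStar ν = (((1 / 2) * (∫ t in Set.Ioi (0 : ℝ), ((Fintype.card ι : ℝ) / (1 + t) - U t))
        + (Fintype.card ι : ℝ) / 2 * Real.log (2 * Real.pi * Real.exp 1) : ℝ) : EReal) := by
  set f : ℝ → ℝ := fun t => (Fintype.card ι : ℝ) / (1 + t) - U t with hf
  have hpos : (∫⁻ t in Set.Ioi (0 : ℝ), (ENNReal.ofReal (Fintype.card ι / (1 + t)) - fisher (ν t)))
      = (∫⁻ t in Set.Ioi (0 : ℝ), ENNReal.ofReal (f t)) := by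
    refine setLIntegral_congr_fun measurableSet_Ioi fun t ht => ?_
    rw [hf]
    simp only
    rw [ENNReal.ofReal_sub _ (hU0 t ht), hU t ht]
  have hneg : (∫⁻ t in Set.Ioi (0 : ℝ), (fisher (ν t) - ENNReal.ofReal (Fintype.card ι / (1 + t))))
      = ∫⁻ t in Set.Ioi (0 : ℝ), ENNReal.ofReal (-f t) := by
    refine setLIntegral_congr_fun measurableSet_Ioi fun t ht => ?_
    have h1 : -f t = U t - (Fintype.card ι : ℝ) / (1 + t) := by
      rw [hf]
      simp only
      ring
    have h2 : 0 ≤ (Fintype.card ι : ℝ) / (1 + t) := by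
      have : (0 : ℝ) < 1 + t := by
        have : (0 : ℝ) < t := ht
        linarith
      positivity
    rw [h1, ENNReal.ofReal_sub _ h2, hU t ht]
  have hfin1 : (∫⁻ t in Set.Ioi (0 : ℝ), ENNReal.ofReal (f t)) ≠ ⊤ := hint.lintegral_lt_top.ne
  have hfin2 : (∫⁻ t in Set.Ioi (0 : ℝ), ENNReal.ofReal (-f t)) ≠ ⊤ :=
    hint.neg.lintegral_lt_top.ne
  have hintf : ∫ t in Set.Ioi (0 : ℝ), f t =
      (∫⁻ t in Set.Ioi (0 : ℝ), ENNReal.ofReal (f t)).toReal
        - (∫⁻ t in Set.Ioi (0 : ℝ), ENNReal.ofReal (-f t)).toReal :=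
    integral_eq_lintegral_pos_part_sub_lintegral_neg_part hint
  unfold chiStar
  rw [EReal.coe_add ((1 / 2) * _), EReal.coe_mul (1 / 2), hintf, EReal.coe_sub, hpos, hneg,
    EReal.coe_ennreal_toReal hfin1, EReal.coe_ennreal_toReal hfin2]

theorem conjNormSq_ge {ι : Type} [Fintype ι] [DecidableEq ι] (μ : List ι → ℂ) (j : ι) (v : ℝ)
    (hv : 0 < v) (h0 : μ [] = 1) (h2 : μ [j, j] = (v : ℂ)) :
    ENNReal.ofReal (1 / v) ≤ conjNormSq μ j := by
  unfold conjNormSq
  refine le_iInf₂ fun C hC => ?_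
  have h := hC (Finsupp.single [j] 1)
  have e1 : dq μ j (Finsupp.single [j] 1) = 1 := by
    unfold dq
    rw [Finsupp.sum_single_index (by simp)]
    simp [dqWord, h0]
  have e2 : normSq μ (Finsupp.single [j] 1) = v := by
    unfold normSq
    rw [Finsupp.sum_single_index (by simp), Finsupp.sum_single_index (by simp)]
    simp [h2]
  rw [e1, e2, norm_one, one_pow] at h
  have h3 : 1 / v ≤ C := by
    rw [div_le_iff₀ hv]
    exact h
  calc ENNReal.ofReal (1 / v) ≤ ENNReal.ofReal (C : ℝ) := ENNReal.ofReal_le_ofReal h3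
    _ = C := ENNReal.ofReal_coe_nnreal

/-- coefficients without edges -/
noncomputable def q0 (c : ℝ) (i : Idx m) : ℝ := if i.1 = i.2 then c else 0

theorem lawQ_q0_nil (c t : ℝ) : lawQ (q0 (m := m) c) t [] = 1 := by
  simp [lawQ, expMom, semi_nil_cu]

theorem lawQ_q0_two (c t : ℝ) (ht : 0 < t) (i : Idx m) :
    lawQ (q0 c) t [i, i] = ((t + scl c i ^ 2 : ℝ) : ℂ) := by
  obtain ⟨a, b⟩ := i
  by_cases hab : a = b
  · subst hab
    have h1 : Real.sqrt t * Real.sqrt t = t := Real.mul_self_sqrt ht.le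
    have h2 : ((Real.sqrt t : ℝ) : ℂ) * ((Real.sqrt t : ℝ) : ℂ) = (t : ℂ) := by
      rw [← Complex.ofReal_mul, h1]
    simp [lawQ, expMom, sig, yw, semi_cons_range, semi_nil_cu, q0, scl]
    rw [h2]
    ring
  · have h1 : Real.sqrt (1 + t) * Real.sqrt (1 + t) = 1 + t :=
      Real.mul_self_sqrt (by linarith)
    have h2 : ((Real.sqrt (1 + t) : ℝ) : ℂ) * ((Real.sqrt (1 + t) : ℝ) : ℂ) = 1 + (t : ℂ) := by
      rw [← Complex.ofReal_mul, h1]
      push_cast
      rfl
    simp [lawQ, expMom, sig, yw, semi_cons_range, semi_nil_cu, q0, scl, hab]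
    rw [h2]
    ring

theorem chiStar_semi {κ : Type} [Fintype κ] [DecidableEq κ] (f : κ → Idx m)
    (hf : Function.Injective f) (c : ℝ) (hc : 0 < c) (hc1 : c ≤ 1) :
    chiStar (fun t => fun w : List κ => lawQ (q0 c) t (w.map f)) =
      ((∑ i : κ, 1 / 2 * Real.log (2 * Real.pi * Real.exp 1 * scl c (f i) ^ 2) : ℝ) : EReal) := by
  have hs0 : ∀ i : κ, 0 < scl c (f i) ^ 2 := by
    intro i
    unfold scl
    split_ifs <;> positivity
  have hs1 : ∀ i : κ, scl c (f i) ^ 2 ≤ 1 := by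
    intro i
    unfold scl
    split_ifs
    · nlinarith
    · norm_num
  have hcj : ∀ (i : κ) (t : ℝ), 0 < t → conjNormSq (fun w : List κ => lawQ (q0 c) t (w.map f)) i =
      ENNReal.ofReal (1 / (t + scl c (f i) ^ 2)) := by
    intro i t ht
    have hpos : 0 < t + scl c (f i) ^ 2 := by
      have := hs0 i
      linarith
    apply le_antisymm
    · refine (conjNormSq_sub f hf (lawQ (q0 c) t) i).trans ?_
      rcases hfi : f i with ⟨a, b⟩
      by_cases hab : a = b
      · subst hab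
        refine (conjNormSq_diag_le (q0 c) c t 0 hc ht le_rfl a (by simp [q0]) ?_).trans
          (ENNReal.ofReal_le_ofReal (le_of_eq ?_))
        · refine le_of_eq (Finset.sum_eq_zero fun b hb => ?_)
          rw [Finset.mem_filter] at hb
          have h1 : ¬ a = b := fun h => hb.2 h.symm
          simp [q0, h1, hb.2]
        · simp [scl]
      · refine (conjNormSq_off_le (q0 c) t ht a b hab).trans
          (ENNReal.ofReal_le_ofReal (le_of_eq ?_))
        simp only [scl, if_neg hab]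
        rw [one_pow, add_comm]
    · refine conjNormSq_ge _ i _ hpos ?_ ?_
      · exact lawQ_q0_nil c t
      · exact lawQ_q0_two c t ht (f i)
  let U : ℝ → ℝ := fun t => ∑ i : κ, 1 / (t + scl c (f i) ^ 2)
  have hU0' : ∀ t, 0 < t → ∀ i : κ, 0 ≤ 1 / (t + scl c (f i) ^ 2) := by
    intro t ht i
    have := hs0 i
    positivity
  have hU : ∀ t, 0 < t → fisher (fun w : List κ => lawQ (q0 c) t (w.map f)) =
      ENNReal.ofReal (U t) := by
    intro t ht
    rw [ENNReal.ofReal_sum_of_nonneg fun i _ => hU0' t ht i]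
    exact Finset.sum_congr rfl fun i _ => hcj i t ht
  have hUeq : ∀ t, (Fintype.card κ : ℝ) / (1 + t) - U t =
      ∑ i : κ, (1 / (1 + t) - 1 / (t + scl c (f i) ^ 2)) := by
    intro t
    simp only [U]
    rw [Finset.sum_sub_distrib, Finset.sum_const, Finset.card_univ, nsmul_eq_mul]
    ring
  have hdi := fun i : κ => integral_inv_sub_inv (scl c (f i) ^ 2) (hs0 i) (hs1 i)
  have hint : IntegrableOn (fun t => (Fintype.card κ : ℝ) / (1 + t) - U t) (Set.Ioi 0) := by
    have e : (fun t => (Fintype.card κ : ℝ) / (1 + t) - U t) =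
        fun t => ∑ i : κ, (1 / (1 + t) - 1 / (t + scl c (f i) ^ 2)) := by
      funext t
      exact hUeq t
    rw [e]
    exact integrable_finsetSum _ fun i _ => (hdi i).1
  have hval : ∫ t in Set.Ioi (0 : ℝ), ((Fintype.card κ : ℝ) / (1 + t) - U t) =
      ∑ i : κ, Real.log (scl c (f i) ^ 2) := by
    simp_rw [hUeq]
    rw [integral_finsetSum _ fun i _ => (hdi i).1]
    exact Finset.sum_congr rfl fun i _ => (hdi i).2
  rw [chiStar_eq _ U (fun t ht => Finset.sum_nonneg fun i _ => hU0' t ht i) hU hint, hval]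
  congr 1
  have hcard : (Fintype.card κ : ℝ) / 2 * Real.log (2 * Real.pi * Real.exp 1) =
      ∑ _i : κ, 1 / 2 * Real.log (2 * Real.pi * Real.exp 1) := by
    rw [Finset.sum_const, Finset.card_univ, nsmul_eq_mul]
    ring
  rw [hcard, Finset.mul_sum, ← Finset.sum_add_distrib]
  refine Finset.sum_congr rfl fun i _ => ?_
  rw [Real.log_mul (by positivity) (hs0 i).ne']
  ring

end Vale.Agent.P087.H894
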