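import Vale.Agent.P087.H894.Lower

/-! The upper bound for the microstates entropy of a sub-tuple. -/

set_option autoImplicit false
set_option linter.unusedSectionVars false

open MeasureTheory Filter
open scoped ENNReal NNReal Topology

namespace Vale.Agent.P087.H894

open Vale.Agent.P087

variable {m : ℕ}

theorem lawQ_diag (q : Idx m → ℝ) (c : ℝ) (hq : ∀ a, q (a, a) = c) (a : Fin m) :
    lawQ q 0 [(a,a),(a,a)] = (c^2 : ℝ) := by
  simp [lawQ, expMom, sig, yw, semi_cons_range, semi_nil_cu, hq]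
  ring

theorem lawQ_off (q : Idx m → ℝ) (a b : Fin m) (hab : a ≠ b) :
    lawQ q 0 [(a,b),(a,b)] = (q (a, b)^2 + 1 : ℝ) := by
  simp [lawQ, expMom, sig, yw, semi_cons_range, semi_nil_cu, Finset.sum_range_succ, hab, hab.symm]
  ring

theorem lawQ_off4 (q : Idx m → ℝ) (c : ℝ) (hq : ∀ a, q (a, a) = c) (a b : Fin m)
    (hab : a ≠ b) :
    lawQ q 0 [(a,b),(a,a),(b,b),(a,a)] = (q (a, b) * c ^ 3 : ℝ) := by
  simp [lawQ, expMom, sig, yw, semi_cons_range, semi_nil_cu, Finset.sum_range_succ, hab,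
    hab.symm, hq]
  left
  ring

theorem lawQ_off4' (q : Idx m → ℝ) (c : ℝ) (hq : ∀ a, q (a, a) = c) (a b : Fin m)
    (hab : a ≠ b) :
    lawQ q 0 [(a,a),(b,b),(a,a),(a,b)] = (q (a, b) * c ^ 3 : ℝ) := by
  simp [lawQ, expMom, sig, yw, semi_cons_range, semi_nil_cu, Finset.sum_range_succ, hab,
    hab.symm, hq]
  ring

theorem lawQ_off6 (q : Idx m → ℝ) (c : ℝ) (hq : ∀ a, q (a, a) = c) (a b : Fin m)
    (hab : a ≠ b) :
    lawQ q 0 [(a,a),(b,b),(a,a),(a,a),(b,b),(a,a)] = (c ^ 6 : ℝ) := by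
  simp [lawQ, expMom, sig, yw, semi_cons_range, semi_nil_cu, Finset.sum_range_succ, hab,
    hab.symm, hq]
  ring

section Sub

variable (P : Idx m → Prop) [DecidablePred P] (hP : ∀ a, P (a, a))

/-- the law of the sub-tuple -/
noncomputable def lawP (q : Idx m → ℝ) (w : List {i // P i}) : ℂ :=
  lawQ q 0 (w.map Subtype.val)

/-- diagonal index -/
def dg (a : Fin m) : {i // P i} := ⟨(a, a), hP a⟩

theorem micro_diag {q : Idx m → ℝ} {c R ε : ℝ} {k : ℕ} (hq : ∀ a, q (a, a) = c) (hk : 0 < k)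
    {x : {i // P i} → Fin k → Fin k → ℝ} (hx : x ∈ microstates (lawP P q) R 6 k ε)
    (a : Fin m) :
    ∑ i, ∑ j, x (dg P hP a) i j ^ 2 ≤ k * (c ^ 2 + ε) := by
  have hk' : (0 : ℝ) < k := by exact_mod_cast hk
  have h := hx.2 [dg P hP a, dg P hP a] (by simp) (by simp)
  have hl : lawP P q [dg P hP a, dg P hP a] = (c ^ 2 : ℝ) := lawQ_diag q c hq a
  rw [hl] at h
  simp only [List.map_cons, List.map_nil, List.prod_cons, List.prod_nil, mul_one] at h
  rw [trace_herm_sq] at h
  have h' : |(k : ℝ)⁻¹ * (∑ i, ∑ j, x (dg P hP a) i j ^ 2) - c ^ 2| < ε := by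
    rw [← Real.norm_eq_abs, ← Complex.norm_real]
    push_cast
    push_cast at h
    exact h
  have h2 := (abs_lt.mp h').2
  have h3 : (k : ℝ)⁻¹ * (∑ i, ∑ j, x (dg P hP a) i j ^ 2) ≤ c ^ 2 + ε := by linarith
  rw [inv_mul_le_iff₀ hk'] at h3
  exact h3

theorem micro_off {q : Idx m → ℝ} {c R ε : ℝ} {k : ℕ} (hq : ∀ a, q (a, a) = c) (hk : 0 < k)
    (hc : 0 < c) {x : {i // P i} → Fin k → Fin k → ℝ}
    (hx : x ∈ microstates (lawP P q) R 6 k ε) (a b : Fin m) (hab : a ≠ b) (hPab : P (a, b)) :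
    ∑ i, ∑ j, (x ⟨(a, b), hPab⟩ - shear k (q (a, b) / c ^ 3) (x (dg P hP a))
      (x (dg P hP b))) i j ^ 2
      ≤ k * (1 + (1 + 2 * |q (a, b) / c ^ 3| + (q (a, b) / c ^ 3) ^ 2) * ε) := by
  have hk' : (0 : ℝ) < k := by exact_mod_cast hk
  set oo : {i // P i} := ⟨(a, b), hPab⟩ with hoo
  have h1 := hx.2 [oo, oo] (by simp) (by simp)
  have h2 := hx.2 [oo, dg P hP a, dg P hP b, dg P hP a] (by simp) (by simp)
  have h3 := hx.2 [dg P hP a, dg P hP b, dg P hP a, oo] (by simp) (by simp)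
  have h4 := hx.2 [dg P hP a, dg P hP b, dg P hP a, dg P hP a, dg P hP b, dg P hP a]
    (by simp) (by simp)
  have l1 : lawP P q [oo, oo] = (q (a, b) ^ 2 + 1 : ℝ) := lawQ_off q a b hab
  have l2 : lawP P q [oo, dg P hP a, dg P hP b, dg P hP a] = (q (a, b) * c ^ 3 : ℝ) :=
    lawQ_off4 q c hq a b hab
  have l3 : lawP P q [dg P hP a, dg P hP b, dg P hP a, oo] = (q (a, b) * c ^ 3 : ℝ) :=
    lawQ_off4' q c hq a b hab
  have l4 : lawP P q [dg P hP a, dg P hP b, dg P hP a, dg P hP a, dg P hP b, dg P hP a] =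
    (c ^ 6 : ℝ) := lawQ_off6 q c hq a b hab
  rw [l1] at h1
  rw [l2] at h2
  rw [l3] at h3
  rw [l4] at h4
  simp only [List.map_cons, List.map_nil, List.prod_cons, List.prod_nil, mul_one] at h1 h2 h3 h4
  have h := norm_comb (s := q (a, b) / c ^ 3) h1 h2 h3 h4
  set s := q (a, b) / c ^ 3 with hs
  have hθ : q (a, b) = s * c ^ 3 := by rw [hs]; field_simp
  set A := herm k (x (dg P hP a)) with hA
  set B := herm k (x (dg P hP b)) with hB
  set X := herm k (x oo) with hX
  have key : ((k : ℂ)⁻¹ * (X * X).trace - s * ((k : ℂ)⁻¹ * (X * (A * (B * A))).trace)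
      - s * ((k : ℂ)⁻¹ * (A * (B * (A * X))).trace)
      + (s : ℂ) ^ 2 * ((k : ℂ)⁻¹ * (A * (B * (A * (A * (B * A))))).trace))
      = (k : ℂ)⁻¹ * ((∑ i, ∑ j, (x oo - shear k s (x (dg P hP a)) (x (dg P hP b))) i j ^ 2
        : ℝ) : ℂ) := by
    rw [← trace_herm_sq, herm_sub, herm_shear, ← hA, ← hB, ← hX]
    have : (X - (s : ℂ) • (A * B * A)) * (X - (s : ℂ) • (A * B * A))
        = X * X - (s : ℂ) • (X * (A * (B * A))) - (s : ℂ) • (A * (B * (A * X)))
          + ((s : ℂ) ^ 2) • (A * (B * (A * (A * (B * A))))) := by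
      simp only [sub_mul, mul_sub, Matrix.smul_mul, Matrix.mul_smul, Matrix.mul_assoc, smul_smul,
        pow_two]
      abel
    rw [this]
    simp only [Matrix.trace_add, Matrix.trace_sub, Matrix.trace_smul, smul_eq_mul]
    ring
  have hm : (((q (a, b) ^ 2 + 1 : ℝ) : ℂ) - s * ((q (a, b) * c ^ 3 : ℝ) : ℂ)
      - s * ((q (a, b) * c ^ 3 : ℝ) : ℂ) + (s : ℂ) ^ 2 * ((c ^ 6 : ℝ) : ℂ)) = ((1 : ℝ) : ℂ) := by
    rw [hθ]; push_cast; ring
  rw [key, hm] at h
  have h' : |(k : ℝ)⁻¹ * (∑ i, ∑ j, (x oo - shear k s (x (dg P hP a))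
      (x (dg P hP b))) i j ^ 2) - 1| ≤ (1 + 2 * |s| + s ^ 2) * ε := by
    rw [← Real.norm_eq_abs, ← Complex.norm_real]
    push_cast
    push_cast at h
    exact h
  have h2 := (abs_le.mp h').2
  have h3 : (k : ℝ)⁻¹ * (∑ i, ∑ j, (x oo - shear k s (x (dg P hP a))
      (x (dg P hP b))) i j ^ 2) ≤ 1 + (1 + 2 * |s| + s ^ 2) * ε := by linarith
  rw [inv_mul_le_iff₀ hk'] at h3
  exact h3

/-- the diagonal indices of the sub-tuple -/
def isD (i : {i // P i}) : Prop := (i : Idx m).1 = (i : Idx m).2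

instance : DecidablePred (isD P) := fun i => inferInstanceAs (Decidable ((i : Idx m).1 = (i : Idx m).2))

/-- the shear -/
noncomputable def shearP (q : Idx m → ℝ) (c : ℝ) (k : ℕ)
    (u : {i : {i // P i} // isD P i} → Fin k → Fin k → ℝ) :
    {i : {i // P i} // ¬ isD P i} → Fin k → Fin k → ℝ := fun j =>
  shear k (q j.1 / c ^ 3) (u ⟨dg P hP j.1.1.1, rfl⟩) (u ⟨dg P hP j.1.1.2, rfl⟩)

theorem continuous_shearP (q : Idx m → ℝ) (c : ℝ) (k : ℕ) :
    Continuous (shearP P hP q c k) := by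
  refine continuous_pi fun j => ?_
  have h1 : Continuous (fun u : ({i : {i // P i} // isD P i} → Fin k → Fin k → ℝ) =>
      (u ⟨dg P hP j.1.1.1, rfl⟩, u ⟨dg P hP j.1.1.2, rfl⟩)) :=
    Continuous.prodMk (continuous_apply _) (continuous_apply _)
  have h2 := (continuous_shear k (q j.1 / c ^ 3)).comp h1
  simp only [Function.comp_def] at h2
  simp only [shearP]
  exact h2

include hP in
theorem volume_micro_le {q : Idx m → ℝ} {c R ε : ℝ} {k : ℕ} (hq : ∀ a, q (a, a) = c)
    (hq1 : ∀ i, |q i| ≤ 1) (hk : 0 < k) (hc : 0 < c) (hε : 0 < ε) :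
    volume (microstates (lawP P q) R 6 k ε) ≤
      ENNReal.ofReal ((2 * Real.pi * Real.exp 1 * (c ^ 2 + ε) / k) ^ ((k : ℝ) ^ 2 / 2))
        ^ Fintype.card {i : {i // P i} // isD P i} *
      ENNReal.ofReal ((2 * Real.pi * Real.exp 1
        * (1 + (1 + 1 / c ^ 3) ^ 2 * ε) / k) ^ ((k : ℝ) ^ 2 / 2))
        ^ Fintype.card {i : {i // P i} // ¬ isD P i} := by
  set K := (1 + 1 / c ^ 3) ^ 2 with hK
  have hK0 : 0 < K := by positivity
  set B1 : Set (Fin k → Fin k → ℝ) := {x | ∑ a, ∑ b, x a b ^ 2 ≤ k * (c ^ 2 + ε)} with hB1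
  set B2 : Set (Fin k → Fin k → ℝ) := {x | ∑ a, ∑ b, x a b ^ 2 ≤ k * (1 + K * ε)} with hB2
  have mB1 : MeasurableSet B1 := by
    apply measurableSet_le
    · fun_prop
    · fun_prop
  have mB2 : MeasurableSet B2 := by
    apply measurableSet_le
    · fun_prop
    · fun_prop
  set F := shearP P hP q c k with hFdef
  have hF : Continuous F := continuous_shearP P hP q c k
  have hmp := volume_preserving_piEquivPiSubtypeProd
    (fun _ : {i // P i} => Fin k → Fin k → ℝ) (isD P)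
  set e := MeasurableEquiv.piEquivPiSubtypeProd
        (fun _ : {i // P i} => Fin k → Fin k → ℝ) (isD P) with he
  have e1 : ∀ x i, (e x).1 i = x i.1 := fun x i => rfl
  have e2 : ∀ x i, (e x).2 i = x i.1 := fun x i => rfl
  have hsub : microstates (lawP P q) R 6 k ε ⊆ e ⁻¹'
      {p | (∀ i, p.1 i ∈ B1) ∧ ∀ j, p.2 j - F p.1 j ∈ B2} := by
    intro x hx
    rw [Set.mem_preimage, Set.mem_ofPred_eq]
    constructor
    · rintro ⟨⟨⟨a, b⟩, hab⟩, h⟩
      have h' : a = b := h
      subst h'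
      rw [e1, hB1, Set.mem_ofPred_eq]
      exact micro_diag P hP hq hk hx a
    · rintro ⟨⟨⟨a, b⟩, hab⟩, h⟩
      have h' : a ≠ b := h
      rw [e2, hB2, Set.mem_ofPred_eq]
      have : F (e x).1 ⟨⟨(a, b), hab⟩, h⟩ =
          shear k (q (a, b) / c ^ 3) (x (dg P hP a)) (x (dg P hP b)) := rfl
      rw [this]
      refine (micro_off P hP hq hk hc hx a b h' hab).trans ?_
      have hs : |q (a, b) / c ^ 3| ≤ 1 / c ^ 3 := by
        rw [abs_div, abs_of_pos (show (0 : ℝ) < c ^ 3 by positivity)]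
        gcongr
        exact hq1 _
      have hs2 : (q (a, b) / c ^ 3) ^ 2 ≤ (1 / c ^ 3) ^ 2 := by
        rw [← sq_abs]
        gcongr
      have hkk : (0 : ℝ) < k := by exact_mod_cast hk
      rw [hK]
      have : (1 + 2 * |q (a, b) / c ^ 3| + (q (a, b) / c ^ 3) ^ 2) * ε ≤
          (1 + 1 / c ^ 3) ^ 2 * ε := by
        gcongr
        nlinarith
      gcongr
  calc volume (microstates (lawP P q) R 6 k ε)
      ≤ _ := measure_mono hsub
    _ = volume {p : ({i : {i // P i} // isD P i} → Fin k → Fin k → ℝ) ×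
          ({i : {i // P i} // ¬ isD P i} → Fin k → Fin k → ℝ) |
          (∀ i, p.1 i ∈ B1) ∧ ∀ j, p.2 j - F p.1 j ∈ B2} := hmp.measure_preimage_equiv _
    _ ≤ (volume B1) ^ (Fintype.card {i : {i // P i} // isD P i})
        * (volume B2) ^ (Fintype.card {i : {i // P i} // ¬ isD P i}) :=
        volume_shear_le F hF B1 B2 mB1 mB2
    _ ≤ _ := by
        have h1 := volume_ball_le k hk (c ^ 2 + ε) (by positivity)
        have h2 := volume_ball_le k hk (1 + K * ε) (by positivity)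
        gcongr

theorem ent_eq (c : ℝ) : ent P c =
    (Fintype.card {i : {i // P i} // isD P i} : ℝ) / 2 *
      Real.log (2 * Real.pi * Real.exp 1 * c ^ 2)
    + (Fintype.card {i : {i // P i} // ¬ isD P i} : ℝ) / 2 *
      Real.log (2 * Real.pi * Real.exp 1) := by
  have h1 : ent P c = ∑ i : {i // P i}, (if isD P i then
      1 / 2 * Real.log (2 * Real.pi * Real.exp 1 * c ^ 2) else
      1 / 2 * Real.log (2 * Real.pi * Real.exp 1)) := by
    unfold ent
    refine Finset.sum_congr rfl fun i _ => ?_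
    unfold scl
    by_cases h : isD P i
    · rw [if_pos h, if_pos (show (i : Idx m).1 = (i : Idx m).2 from h)]
    · rw [if_neg h, if_neg (show ¬ (i : Idx m).1 = (i : Idx m).2 from h), one_pow, mul_one]
  rw [h1, Finset.sum_ite, Finset.sum_const, Finset.sum_const, nsmul_eq_mul, nsmul_eq_mul,
    Fintype.card_subtype, Fintype.card_subtype]
  ring

include hP in
theorem upper_bound (q : Idx m → ℝ) (c : ℝ) (hc : 0 < c) (hq : ∀ a, q (a, a) = c)
    (hq1 : ∀ i, |q i| ≤ 1) (R : ℝ) :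
    chiR (lawP P q) R ≤ (ent P c : EReal) := by
  set K := (1 + 1 / c ^ 3) ^ 2 with hK
  have hK0 : 0 < K := by positivity
  set nD := Fintype.card {i : {i // P i} // isD P i} with hnD
  set nO := Fintype.card {i : {i // P i} // ¬ isD P i} with hnO
  have hcard : (Fintype.card {i // P i} : ℝ) = nD + nO := by
    have h1 := Fintype.card_subtype_compl (isD P)
    have h2 := Fintype.card_subtype_le (isD P)
    have : Fintype.card {i // P i} = nD + nO := by omega
    exact_mod_cast this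
  let C : ℝ → ℝ := fun ε => (nD : ℝ) / 2 * Real.log (2 * Real.pi * Real.exp 1 * (c ^ 2 + ε))
        + (nO : ℝ) / 2 * Real.log (2 * Real.pi * Real.exp 1 * (1 + K * ε))
  have hC : ∀ ε : ℝ, 0 < ε → chiR (lawP P q) R ≤ (C ε : EReal) := by
    intro ε hε
    apply iInf_le_of_le 6
    apply iInf_le_of_le ε
    apply iInf_le_of_le hε
    apply limsup_le_of_le (by isBoundedDefault)
    filter_upwards [eventually_gt_atTop 0] with k hk
    have hk' : (0 : ℝ) < k := by exact_mod_cast hk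
    have hv := volume_micro_le P hP (R := R) hq hq1 hk hc hε
    rw [← hK, ← hnD, ← hnO] at hv
    set V1 := (2 * Real.pi * Real.exp 1 * (c ^ 2 + ε) / k) ^ ((k : ℝ) ^ 2 / 2) with hV1
    set V2 := (2 * Real.pi * Real.exp 1 * (1 + K * ε) / k) ^ ((k : ℝ) ^ 2 / 2) with hV2
    have p1 : 0 < V1 := by positivity
    have p2 : 0 < V2 := by positivity
    rw [← ENNReal.ofReal_pow p1.le, ← ENNReal.ofReal_pow p2.le,
      ← ENNReal.ofReal_mul (by positivity)] at hv
    have hl := ENNReal.log_monotone hv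
    rw [ENNReal.log_ofReal_of_pos (by positivity)] at hl
    have hlog : Real.log (V1 ^ nD * V2 ^ nO) =
        (nD : ℝ) * ((k : ℝ) ^ 2 / 2 * (Real.log (2 * Real.pi * Real.exp 1 * (c ^ 2 + ε))
          - Real.log k))
        + (nO : ℝ) * ((k : ℝ) ^ 2 / 2 * (Real.log (2 * Real.pi * Real.exp 1
          * (1 + K * ε)) - Real.log k)) := by
      rw [Real.log_mul (by positivity) (by positivity), Real.log_pow, Real.log_pow, hV1, hV2,
        Real.log_rpow (by positivity), Real.log_rpow (by positivity),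
        Real.log_div (by positivity) (by positivity), Real.log_div (by positivity) (by positivity)]
    rw [hlog] at hl
    rw [hcard]
    calc ((((k : ℝ) ^ 2)⁻¹ : ℝ) : EReal)
            * ENNReal.log (volume (microstates (lawP P q) R 6 k ε))
            + ((((nD : ℝ) + nO) / 2 * Real.log k : ℝ) : EReal)
        ≤ ((((k : ℝ) ^ 2)⁻¹ : ℝ) : EReal) * (((nD : ℝ) * ((k : ℝ) ^ 2 / 2
            * (Real.log (2 * Real.pi * Real.exp 1 * (c ^ 2 + ε)) - Real.log k))
        + (nO : ℝ) * ((k : ℝ) ^ 2 / 2 * (Real.log (2 * Real.pi * Real.exp 1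
          * (1 + K * ε)) - Real.log k)) : ℝ) : EReal)
            + ((((nD : ℝ) + nO) / 2 * Real.log k : ℝ) : EReal) := by
          gcongr
      _ = (C ε : EReal) := by
          rw [← EReal.coe_mul, ← EReal.coe_add]
          congr 1
          simp only [C]
          field_simp
          ring
  have ht : Tendsto (fun ε => (C ε : EReal)) (nhdsWithin 0 (Set.Ioi 0)) (nhds (C 0 : EReal)) := by
    apply (continuous_coe_real_ereal.tendsto _).comp
    apply Tendsto.mono_left _ nhdsWithin_le_nhds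
    apply ContinuousAt.tendsto
    simp only [C]
    apply ContinuousAt.add
    · apply ContinuousAt.mul continuousAt_const
      apply ContinuousAt.log
      · fun_prop
      · positivity
    · apply ContinuousAt.mul continuousAt_const
      apply ContinuousAt.log
      · fun_prop
      · positivity
  have h0 : C 0 = ent P c := by
    rw [ent_eq, ← hnD, ← hnO]
    simp [C]
  rw [← h0]
  apply ge_of_tendsto ht
  filter_upwards [self_mem_nhdsWithin] with ε hε
  exact hC ε hε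

end Sub

end Vale.Agent.P087.H894
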